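import Vale.Agent.P014U.Rc.St
import Vale.Agent.P014U.Sb.Tt
import Vale.Agent.P014T.Rc.Glue

/-!
# P014U, block REC: the explicit reciprocity law from the rows
-/

set_option autoImplicit false
set_option linter.all false

open scoped Classical MatrixGroups Real ComplexConjugate UpperHalfPlane
open CongruenceSubgroup NumberField PowerSeries

noncomputable section

namespace Vale.Agent.P014U.Rc

export Vale.Agent.P014T.Rc (gl ga g_le nz_of rg_int)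

open Vale.Agent.P022 (Qb GQ)
open Vale.Agent.P022D.W (dec)
open Vale.Agent.P014U.X4S.Ga (K O)
open Vale.Agent.P014U.X4F.Rc (mq hn)
open Vale.Agent.P004M.TE (Pt)
open Vale.Agent.P027M.M (Mdl FF L cv io Lv Cyc L_mono x_galx)
open P027M.K (SL)
open Ah (Ind am AA)
open P014T.Dc (Vf jv)
open P014T.Sg (sF Nz)
open Sb (Gd Lm)
open P014T.Wm (Fx)

variable [Pp]

variable {ι : Qb →+* ℂ_[pp]} {N : ℕ} {μ : ℂ_[pp] →₀ ℤ} {n : ℍ → ℤ}

theorem Rp.smul (h : Rp ι N μ n) (c : ℤ) : Rp ι N (c • μ) (c • n) :=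
  ⟨fun q m => h.ex q (Finsupp.support_smul m), fun q τ s => congrArg (c * ·) (h.eq q τ s),
    fun τ k => h.sup τ (right_ne_zero_of_mul k)⟩

theorem sum_smul (c : ℤ) (μ : ℂ_[pp] →₀ ℤ) (φ : ℂ_[pp] → ℂ_[pp]) :
    ∑ q ∈ (c • μ).support, (c • μ) q * φ q = c * ∑ q ∈ μ.support, μ q * φ q := by
  rw [Finset.sum_subset Finsupp.support_smul fun q _ k => by
    rw [Finsupp.notMem_support_iff.1 k, Int.cast_zero, zero_mul], Finset.mul_sum]
  exact Finset.sum_congr rfl fun q _ => by simp [mul_assoc]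

theorem sum_two (q q' : ℂ_[pp]) (φ : ℂ_[pp] → ℂ_[pp]) :
    ∑ u ∈ (Finsupp.single q (1 : ℤ) - Finsupp.single q' 1).support,
      (Finsupp.single q (1 : ℤ) - Finsupp.single q' 1 : ℂ_[pp] →₀ ℤ) u * φ u = φ q - φ q' := by
  have := Finsupp.sum_sub_index (f := Finsupp.single q (1 : ℤ)) (g := Finsupp.single q' 1)
    (h := fun u (k : ℤ) => k * φ u) fun u a b => by push_cast; ring
  rw [Finsupp.sum_single_index (by simp), Finsupp.sum_single_index (by simp)] at this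
  exact this.trans (by simp)

theorem mem_two {q q' u : ℂ_[pp]} (h : u ∈ (Finsupp.single q (1 : ℤ) - Finsupp.single q' 1).support) :
    u = q ∨ u = q' := by
  by_contra! c
  simp [Finsupp.single_eq_of_ne c.1, Finsupp.single_eq_of_ne c.2] at h

/-- **the explicit reciprocity law** -/
theorem rec_of {Kz : KZ} (hE : EVQ Kz) (hA : ABQ) (hM : MT) (hK : HK) (hL : LH) (hP : PLQ)
    (hF : FEV) (hV : VAL) (hR : PAR) : REC Kz := by
  intro X N G a A B w I x y hD ι P h lg r p lk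
  obtain ⟨S, Q, m, NS, Q0, pj, vol, ab⟩ := hA N G a A B w I x y r p
  obtain ⟨q, R, ne, hq⟩ := hR N G a A B w I x y ι P h lg r p lk
  obtain ⟨xm, ym, gal⟩ := (ga X).2 N a A B w I x y p
  obtain ⟨mt1, mt2⟩ := hM ι 1 N (Gamma0 N) one_pos r.pos (g_le dvd_rfl)
    (by rw [pow_one, Gamma0_mem]; simp [ModularGroup.T])
  choose q0 q1 qa qg qj qf qv ql using hq
  choose τ hτ using fun i => (qj i).elim fun b e => mt1 (q i) b (q0 i) (q1 i) (by rwa [pow_one])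
  have ob (i u z) (s : Sm ι 1 (Gamma0 N) u z) : orb N (τ i) z = Finsupp.single (q i) (1 : ℤ) u := by
    rw [orb, Finsupp.single_apply]
    refine if_congr (((mt2 _ _ (hτ i)).2.1 z).symm.trans ⟨fun k => ?_, fun k => k ▸ s⟩) rfl rfl
    simpa using (mt2 _ _ s).2.2 _ k
  set μ0 : ℂ_[pp] →₀ ℤ := Finsupp.single (q 0) 1 - Finsupp.single (q 1) 1 with hμ0
  have rp0 : Rp ι N μ0 (orb N (τ 0) - orb N (τ 1)) := by
    refine ⟨fun u k => (mem_two k).elim (fun e => ⟨_, e ▸ hτ 0⟩) fun e => ⟨_, e ▸ hτ 1⟩,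
      fun u z s => by rw [Pi.sub_apply, ob 0 u z s, ob 1 u z s]; rfl, fun z k => ?_⟩
    by_contra! c
    have (i : Fin 2) : orb N (τ i) z = 0 := if_neg fun e => c _ (((mt2 _ _ (hτ i)).2.1 z).2 e)
    exact k (by rw [Pi.sub_apply, this, this, sub_self])
  have ok0 : Ok μ0 := fun u k => (mem_two k).elim (fun e => e ▸ ⟨q0 0, q1 0, qa 0, qg 0⟩)
    fun e => e ▸ ⟨q0 1, q1 1, qa 1, qg 1⟩
  have iq0 : Iq h μ0 := fun g hg u => by
    have (i : Fin 2) : Finsupp.single (q i) (1 : ℤ) (h.ro g u) = Finsupp.single (q i) (1 : ℤ) u := by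
      rw [Finsupp.single_apply, Finsupp.single_apply]
      exact if_congr (by rw [← (h.ro g).injective.eq_iff (a := q i) (b := u), qf i g hg]) rfl rfl
    rw [hμ0, Finsupp.sub_apply, this, this, Finsupp.sub_apply]
  obtain ⟨n1, rp1, e1⟩ := hK ι N S Q μ0 _ r.pos NS rp0
  obtain ⟨ok1, iq1, lh⟩ := hL.1 S Q μ0 ok0
  have pv (i : Fin 2) : Pv x y (τ i) (R i).1 :=
    let ⟨c, d, k, e, u, v⟩ := qv i
    ⟨c, d, k, e, ((hτ i).val x xm c).1 u, ((hτ i).val y ym d).1 v⟩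
  obtain ⟨k, k0, hk⟩ := ab (τ 0) (τ 1) _ _ n1 (mt2 _ _ (hτ 0)).1 (mt2 _ _ (hτ 1)).1 (pv 0) (pv 1) e1
  set R0 : Fx A B (dec P) := (k * ev a Q) • (R 0 - R 1) with hR0
  have e0 : lg R0 = (k * ev a Q : ℤ) * (lg (R 0) - lg (R 1)) := by
    rw [hR0, map_zsmul, map_sub, zsmul_eq_mul]
  have l0 : lg R0 ≠ 0 := e0 ▸ mul_ne_zero (Int.cast_ne_zero.2
    (mul_ne_zero (Nat.cast_ne_zero.2 k0.ne') Q0)) (sub_ne_zero.2 ne)
  have t0 (j : ℕ) (hj : j ≠ 0) : j • R0.1 ≠ 0 := fun e => by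
    have : lg (j • R0) = 0 := by rw [show j • R0 = 0 from Subtype.ext e, map_zero]
    rw [map_nsmul, nsmul_eq_mul] at this
    exact mul_ne_zero (Nat.cast_ne_zero.2 hj) l0 this
  have t1 : 2 • (R0.1 + R0.1) ≠ 0 := by
    rw [← two_nsmul, ← mul_nsmul]
    exact t0 _ (by norm_num)
  obtain ⟨f, hf⟩ := hk R0.1 R0.1 rfl (t0 2 two_ne_zero) t1
  refine ⟨R0, l0, fun M n l el n0 M0 M2 Nl => ?_⟩
  have lv : Lv l := ⟨el ▸ mul_pos M0 (pow_pos pp_pos n), el ▸ M2.mul_right _⟩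
  haveI : NeZero l := ⟨lv.pos.ne'⟩
  haveI := P014T.Dc.cff (Gamma l) inferInstance
  obtain ⟨σ, hσ⟩ := (ga X).1 l lv
  have le := L_mono (g_le Nl)
  obtain ⟨e, oe, he⟩ := hE X N G a A B w I l n ⟨x, le xm⟩ ⟨y, le ym⟩ hD σ r p Nl lv
    (el ▸ dvd_mul_left _ _) hσ
  obtain ⟨e', oe', he'⟩ := hF X ι P h M n l el n0 M2
  refine ⟨e * e', Sb.nd_mul oe oe', fun c d γ z ad kz J _ s pq κ ω R' c0 wt hR' hc0 => ?_⟩
  have rp := rp1.smul (k * m)
  have iq : Iq h ((k * m : ℤ) • Hq Q μ0) := fun g hg u => congrArg (_ * ·) (iq1 ι P h iq0 g hg u)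
  have ok : Ok ((k * m : ℤ) • Hq Q μ0) := fun u j => ok1 u (Finsupp.support_smul j)
  obtain ⟨Av, av, hf'⟩ := hP X ι P h N l σ A B ⟨x, le xm⟩ ⟨y, le ym⟩ ⟨f, le hf.mem⟩ R0.1 R0.1 _ _ lv Nl
    hσ gal R0.2 R0.2 rp iq hf
  obtain ⟨zn, v0⟩ := he ⟨_, ad.mem0 lv.pos Nl⟩ ⟨_, ad.mem1 lv.pos Nl⟩ z kz ι P h J s pq
    (fun i => ω (κ i)) wt.tr wt.inv _ _ R' _ Av R0.2 R0.2 (t0 2 two_ne_zero) t1 hR' hf'
  choose t ht using fun u : ℂ_[pp] => IsAlgClosed.exists_pow_nat_eq u lv.pos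
  obtain ⟨θ, eθ, sθ⟩ := he' σ N c d γ ⟨_, ad.mem0 lv.pos Nl⟩ ⟨_, ad.mem1 lv.pos Nl⟩ J s pq κ ω _ Av
    t e hσ Nl ad rfl rfl wt ok iq
    (fun u j => (rp.ex u j).elim fun _ s => by simpa using s.alg) av fun u _ => ht u
  obtain ⟨v1, v2, κ0, v3, v4⟩ := hV ι N G a A B w I _ _ S l Q c d γ ω r p NS Nl pj ad wt.un _ rfl
  have lC {F : Type} [Field F] [CharZero F] : (l : F) ≠ 0 := Nat.cast_ne_zero.2 lv.pos.ne'
  have wC {F : Type} [Field F] [CharZero F] : (w : F) ≠ 0 := Nat.cast_ne_zero.2 p.wpos.ne'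
  have QC {F : Type} [Field F] [CharZero F] : (ev a Q : F) ≠ 0 := Int.cast_ne_zero.2 Q0
  refine ⟨κ0 * m * w / (ev a Q * l ^ 2), θ / (l * lg R0), ?_, ?_, zn, ?_⟩
  · have (i : Fin 2) : Lm (q i) (PowerSeries.mk fun n => ι κ0 * a n) = ι κ0 * (w * am (lg (R i))) := by
      rw [ql, ← Sb.Lm_C]
      congr 1
      ext j
      simp
    rw [sum_smul, Finset.sum_congr rfl fun u j => by
      rw [hL.2 l (t u) _ lv.pos (by
          have := (ok1 u j).2.1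
          rw [← ht u, norm_pow] at this
          exact lt_of_pow_lt_pow_left₀ l zero_le_one (by rwa [one_pow]))
        ((ht u).symm ▸ (ok1 u j).2.2.2) v2 v1, ht, ← mul_div_assoc], ← Finset.sum_div,
      lh _ (v2.imp fun _ b j => b _), v3, sum_two, this, this] at eθ
    have k1 : am (lg (R 0)) - am (lg (R 1)) ≠ 0 := sub_ne_zero.2 (am.injective.ne ne)
    have k2 : (k : ℂ_[pp]) ≠ 0 := Nat.cast_ne_zero.2 k0.ne'
    have := lC (F := ℂ_[pp])
    have := QC (F := ℂ_[pp])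
    simp only [map_div₀, map_mul, map_natCast, map_intCast, map_pow, map_sub, e0, eθ]
    push_cast
    field_simp
  · have v5 := vol c0 hc0
    have := lC (F := ℂ)
    have := QC (F := ℂ)
    have := wC (F := ℂ)
    have : (π : ℂ) ≠ 0 := Complex.ofReal_ne_zero.2 Real.pi_ne_zero
    simp only [map_div₀, map_mul, map_natCast, map_intCast, map_pow]
    field_simp at v4 ⊢
    refine mul_left_cancel₀ wC ?_
    linear_combination io κ0 * v5 + v4
  · rw [v0, sθ]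
    congr 1
    have : (M : K) ≠ 0 := Nat.cast_ne_zero.2 M0.ne'
    rw [el, hn, sq, mul_pow]
    push_cast
    field_simp

end Vale.Agent.P014U.Rc
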