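import Vale.Agent.P014U.Rc.St
import Vale.Agent.P014U.Sb.Tt
import Vale.Agent.P014T.Rc.Even

/-!
# P014U, block REC: a good symbol, and the reciprocity law for even weights
-/

set_option autoImplicit false
set_option linter.all false

open scoped Classical MatrixGroups Real ComplexConjugate UpperHalfPlane
open CongruenceSubgroup NumberField ModularGroup

noncomputable section

namespace Vale.Agent.P014U.Rc

export Vale.Agent.P014T.Rc (shape sy_bad sm_neg sm_mul)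

open Vale.Agent.P022 (Qb GQ)
open Vale.Agent.P022D.W (dec)
open Vale.Agent.P014U.X4S.Ga (K O)
open Vale.Agent.P014U.X4F.Rc (mq hn)
open Vale.Agent.P004M.TE (Pt)
open P004N (RN)
open Vale.Agent.P027M.M (Mdl FF io)
open Ah (Ind am)
open P014T.Sg (sF)
open P014T.Pu (ParY)
open P014T.Es (LL sy)
open P014T.Rk (Lw)
open Cp (Zn cp)
open P014T.Wm (Fx)
open P014T.Top (w0)

variable [Pp]

variable {N : ℕ} {G I : ℍ → ℂ} {a : ℕ → ℤ} {A B : ℤ} {w : ℕ} {x y : P022.H218.L3.Mer}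

/-- **a good symbol with an imaginary coordinate prime to `pp`** -/
theorem gam (r : RN N G a) (p : ParY N a A B w I x y) : ∃ (γ : SL(2, ℤ)) (μ : ℤ) (c : ℝ),
    ¬ (N : ℤ) ∣ γ 1 0 ∧ ¬ (N : ℤ) ∣ γ 1 1 ∧ ¬ (pp : ℤ) ∣ μ ∧ 0 < c ∧ Vol (LL I) c ∧
      (sy I γ).im * w0 A B = μ * c := by
  obtain ⟨t, v, u0, v0, h⟩ := shape p
  obtain ⟨A', B', Λ, x', y', q⟩ := p.par
  have vol : Vol (LL I) (w0 A B * v) := ⟨_, _, h, by simp [abs_of_pos, u0, v0]⟩
  by_contra! c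
  have k : ∀ z ∈ Submodule.span ℤ (Set.range (sy I)), ∃ k : ℤ, z.im = pp * k * v := fun z m => by
    induction m using Submodule.span_induction with
    | mem _ k =>
      obtain ⟨γ, rfl⟩ := k
      by_cases b : (N : ℤ) ∣ γ 1 0 ∨ (N : ℤ) ∣ γ 1 1
      · exact ⟨0, by simp [sy_bad r p b]⟩
      obtain ⟨m, n, e⟩ := (h _).1 (P014T.Es.sy_mem I γ)
      have e' : (sy I γ).im = n * v := by simp [e]
      obtain ⟨k, rfl⟩ := not_not.1 fun o : ¬ (pp : ℤ) ∣ n => c γ n _ (not_or.1 b).1 (not_or.1 b).2 o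
        (mul_pos u0 v0) vol (by rw [e']; ring)
      exact ⟨k, by rw [e']; push_cast; ring⟩
    | zero => exact ⟨0, by simp⟩
    | add _ _ _ _ i j =>
      obtain ⟨i, e⟩ := i
      obtain ⟨j, e'⟩ := j
      exact ⟨i + j, by rw [Complex.add_im, e, e']; push_cast; ring⟩
    | smul n _ _ i =>
      obtain ⟨i, e⟩ := i
      exact ⟨n * i, by rw [zsmul_eq_mul, Complex.mul_im, e]; simp; ring⟩
  obtain ⟨j, e⟩ := k (t + v * Complex.I) (P014T.Es.manin r q ▸ (h _).2 ⟨0, 1, by simp⟩)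
  have : ((pp * j : ℤ) : ℝ) = (1 : ℤ) := mul_right_cancel₀ v0.ne' (by simpa using e.symm)
  exact Sb.nd_one ⟨j, (Int.cast_injective this).symm⟩

/-- **the reciprocity law for even weights** -/
def RCE (Kz : KZ) : Prop := ∀ (X : Mdl) N G a A B (w : ℕ) I x y
  (hD : 4 * ((A : ℤ) : ℚ) ^ 3 + 27 * ((B : ℤ) : ℚ) ^ 2 ≠ 0), RN N G a →
  ParY N a A B w I (P027M.M.cv x) (P027M.M.cv y) → ∃ γ : SL(2, ℤ), ¬ (N : ℤ) ∣ γ 1 0 ∧
    ¬ (N : ℤ) ∣ γ 1 1 ∧ ∀ ι P (h : Ind ι P) (lg : Fx A B (dec P) →+ K), Lc.Lk ι lg →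
  ∃ R : Fx A B (dec P), lg R ≠ 0 ∧ ∀ M n l : ℕ, l = M * pp ^ n → 0 < n → 0 < M → 4 ∣ M → N ∣ l →
    ∃ u : ℤ, ¬ (pp : ℤ) ∣ u ∧ ∀ (c d : ℕ) z, Ad N l c d γ →
      Kz X A B x y l n (sF c (rg l γ 0)) (sF d (rg l γ 1)) z →
      ∀ (J : Type) [Fintype J] s p (κ : J → ℤ) (ω : ZMod l → ℤ) R', Wt l (dec P) s p κ ω →
        (∀ x, ω (-x) = ω x) → pp ^ n • R' = R.1 → ∃ (b : Qb) (θ : K), am θ = ι b ∧
          io b * w0 A B = Lw a (fun n => sm c d ω n) ∧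
          Zn (dec P) n (zw s p (fun i => ω (κ i)) z) ∧
          4 • Iv.iv P (cp (Ki.wp hD) n (Bt.dd A B R') (zw s p (fun i => ω (κ i)) z)) =
            mq (hn n * lg R * (4 * u * θ))

theorem REC.even {Kz : KZ} (H : REC Kz) : RCE Kz := by
  intro X N G a A B w I x y hD r p
  obtain ⟨γ, μ, c0, g0, g1, o, c1, vol, e⟩ := gam r p
  refine ⟨γ, g0, g1, fun ι P h lg lk => ?_⟩
  obtain ⟨R, l0, H⟩ := H X N G a A B w I x y hD ι P h lg r p lk
  refine ⟨R, l0, fun M n l el n0 M0 M2 Nl => ?_⟩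
  obtain ⟨u, ou, H⟩ := H M n l el n0 M0 M2 Nl
  refine ⟨-(u * μ), Sb.nd_neg (Sb.nd_mul ou o), fun c d z ad kz J _ s q κ ω R' wt ev hR => ?_⟩
  obtain ⟨b, θ, e1, e2, zn, e3⟩ := H c d γ z ad kz J s q κ ω R' c0 wt hR vol
  have m0 {F : Type} [Field F] [CharZero F] : (μ : F) ≠ 0 :=
    Int.cast_ne_zero.2 fun k => by simp [k] at o
  refine ⟨b / (-2 * μ), θ / (-2 * μ), by simp [e1, map_ofNat], ?_, zn, ?_⟩
  · have : (c0 : ℂ) ≠ 0 := Complex.ofReal_ne_zero.2 c1.ne'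
    have e4 : ((sy I γ).im : ℂ) * w0 A B = μ * c0 := by exact_mod_cast e
    have e5 := Complex.sub_conj (sy I γ)
    simp only [sm_neg ev] at e2
    simp only [map_div₀, map_mul, map_neg, map_ofNat, map_intCast]
    push_cast at e5
    rw [div_mul_eq_mul_div, div_eq_iff (mul_ne_zero (by norm_num) m0)]
    refine mul_right_cancel₀ this ?_
    linear_combination (w0 A B : ℂ) * e2 + (Complex.I * Lw a (fun n => sm c d ω n) * w0 A B) * e5 +
      (-2 * Lw a fun n => sm c d ω n) * e4 +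
      (2 * Lw a (fun n => sm c d ω n) * w0 A B * (sy I γ).im) * Complex.I_mul_I
  · rw [e3]
    congr 1
    have := m0 (F := K)
    push_cast
    field_simp
    ring

end Vale.Agent.P014U.Rc
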