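import Vale.Agent.P014U.Rc.St
import Vale.Agent.P014T.Rc.Plq

/-! # P014U, block REC, row PLQ: from the upper half plane to the places of `X(l)` -/

set_option linter.all false

open scoped Classical MatrixGroups
open CongruenceSubgroup NumberField

noncomputable section

namespace Vale.Agent.P014U.Rc

open Vale.Agent.P022 (Qb GQ)
open Vale.Agent.P022D.W (dec)
open Vale.Agent.P004M.TE (Pt ga ga_some)
open Vale.Agent.P027M.M
open P027M.K (Val SL)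
open Vale.Agent.P019P
open Ah (Ind)
open P014T.Dc P014T.Ts
open P014T.Wm (Fx)

variable [Pp]

namespace Pq

export Vale.Agent.P014T.Rc.Pq (gle T0 neg0 gal0 pv pv_eq val_sm pb_sm pb_pc)

variable {X : Mdl} {ι : Qb →+* ℂ_[pp]} {P : Ideal (𝓞 Qb)} {N l : ℕ} {A B : ℤ} {g : GQ}

theorem vf1 (hl : 0 < l) {t c : ℂ_[pp]} (h1 : ‖t‖ < 1) {z : FF} (m : z ∈ L (Gamma0 N)) :
    Vf ι l t z c ↔ Vf ι 1 (t ^ l) z c := by
  have := vf_up (ι := ι) (c := c) one_pos hl (lf_of_mem one_pos (T0 N) m) h1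
  rwa [one_mul] at this

theorem rt {t : ℂ_[pp]} (hl : 0 < l) (h0 : t ^ l ≠ 0) (h1 : ‖t ^ l‖ < 1) : t ≠ 0 ∧ ‖t‖ < 1 :=
  ⟨fun e => h0 (by rw [e, zero_pow hl.ne']), by
    rwa [norm_pow, pow_lt_one_iff_of_nonneg (norm_nonneg _) hl.ne'] at h1⟩

variable [CFF Qb (L (Gamma l))] {σ : GQ →* SL Qb (L (Gamma l))} {Q : Plk Qb (L (Gamma l))}
  {q t : ℂ_[pp]} {τ : UpperHalfPlane}

variable (ι N) in
/-- the place `Q` lies over the point `q` of the disc of `X₀(N)` -/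
structure Up (q : ℂ_[pp]) (Q : Plk Qb (L (Gamma l))) : Prop where
  ne : q ≠ 0
  lt : ‖q‖ < 1
  alg : ∃ a, jv (q ^ 1) = ι a
  val : ∀ z : L (Gamma l), (z : FF) ∈ L (Gamma0 N) → ∀ a, Val Q z a ↔ Vf ι 1 q z (ι a)

theorem Up.j (h : Up ι N q Q) {a : Qb} (e : jv (q ^ 1) = ι a) : Val Q (jL _) a :=
  (h.val (jL _) (jF_mem _) a).2 (by rw [← e]; exact vf_j one_pos h.ne h.lt)

theorem Up.mem (h : Up ι N q Q) : jL _ ∈ Q.1 :=
  h.alg.elim fun _ e => (mem_iff_ord _ _).2 (mem_Mge.1 (h.j e).mem)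

theorem Up.sm (d : N ∣ l) (h : Up ι N q Q) (k : Ac τ Q) : Sm ι 1 (Gamma0 N) q τ :=
  ⟨h.ne, h.lt, h.alg, fun f m a =>
    (h.val ⟨f, L_mono (gle d) m⟩ m a).symm.trans (k.val ⟨f, L_mono (gle d) m⟩ a)⟩

theorem up_of_sm (h : Sm ι 1 (Gamma0 N) q τ) (k : Ac τ Q) : Up ι N q Q :=
  ⟨h.ne, h.lt, h.alg, fun z m a => (k.val z a).trans (h.val z m a).symm⟩

theorem up_of_at (hl : 0 < l) (h0 : t ≠ 0) (h1 : ‖t‖ < 1) {γ : SL(2, ℤ)} (m : γ ∈ Gamma0 N)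
    (h : At ι l t (eg X γ _) Q) : Up ι N (t ^ l) Q := by
  refine ⟨pow_ne_zero _ h0, by rw [norm_pow]; exact pow_lt_one₀ (norm_nonneg _) h1 hl.ne',
    (h.j hl h0 h1 (eg_j X γ)).imp fun a e => by rw [pow_one, e.1], fun z k a => ?_⟩
  rw [h z a, eg_apply, (Hec.mem_L_iff X).1 k γ m, vf1 hl h1 k]

theorem Up.at (X : Mdl) (hl : Lv l) (d : N ∣ l) (h : Up ι N (t ^ l) Q) :
    ∃ γ ∈ Gamma0 N, At ι l t (eg X γ _) Q := by
  obtain ⟨h0, h1⟩ := rt hl.pos h.ne h.lt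
  obtain ⟨a, e⟩ := h.alg
  have hj := h.j e
  rw [pow_one] at e
  obtain ⟨γ, k⟩ := all_fib X hl.pos le_rfl h0 h1 e hj
  have := cff _ (fi_gamma hl.pos (gle d))
  obtain ⟨W, w, -⟩ := ex_fib X hl.pos (gle d) h0 h1 e 1
  have w' : At ι l t (eg X γ (Gamma0 N)) W := fun z b => by
    rw [w z b, eg_apply, (Hec.mem_L_iff X).1 z.2 1 (one_mem _), vf1 hl.pos h1 z.2]
    exact (h.val ⟨z, L_mono (gle d) z.2⟩ z.2 b).symm.trans (k _ b)
  have := (fib_iff X hl (gle d) h0 h1 w').1 w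
  rw [inv_one, mul_one] at this
  exact ⟨γ, this.elim id neg0, k⟩

theorem Up.gal (hN : 0 < N) (s : Ga X σ) (h : Ind ι P) (hg : g ∈ dec P) (u : Up ι N q Q) :
    Up ι N (h.ro g q) (σ g • Q) := by
  refine ⟨(map_ne_zero _).2 u.ne, (h.ro_nrm g q).trans_lt u.lt, ?_, fun z m a => ?_⟩
  · obtain ⟨a, e⟩ := u.alg
    rw [pow_one] at e ⊢
    exact ⟨g a, by rw [jv_map _ (h.ro_nrm g) u.lt, e, h.ro_emb hg]⟩
  · obtain ⟨w, rfl⟩ := (σ g).1.surjective z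
    obtain ⟨b, rfl⟩ := g.surjective a
    have e : (w : FF) = X.gal g⁻¹ ((σ g).1 w : L (Gamma l)) := by
      rw [← s, map_inv, sl_inv']
    have m' : (w : FF) ∈ L (Gamma0 N) := e ▸ gal0 X hN _ m
    rw [val_sm (s.cst g), u.val w m', s, ← h.ro_emb hg, vf_gal X one_pos _ (h.ro_nrm g)
      (h.ro_emb hg) (lf_of_mem one_pos (T0 N) m') u.lt]

end Pq

open Pq in
theorem plq (pt : PT) : PLQ := by
  intro X ι P h N l _ σ A B x y f R t μ n hl d s xy hR ht rp iq hc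
  have hN : 0 < N := Nat.pos_of_dvd_of_pos d hl.pos
  have f0 : f ≠ 0 := fun e => hc.ne (by rw [e]; rfl)
  obtain ⟨Av, av⟩ : ∃ Av : Plk Qb (L (Gamma l)) →₀ ℤ, ∀ Q, Av Q =
      if jL _ ∈ Q.1 then ord Q f + (pb x y (t + R) Q - pb x y t Q) else 0 :=
    ⟨(dv Qb f + (pv x y (t + R) - pv x y t)).filter fun Q => jL _ ∈ Q.1, fun Q => by
      rw [Finsupp.filter_apply, Finsupp.add_apply, Finsupp.sub_apply, dv_apply, pv_eq, pv_eq]⟩
  have a1 : ∀ Q τ, jL _ ∈ Q.1 → Ac τ Q → Av Q = n τ := fun Q τ m k => by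
    rw [av, if_pos m, k.ord, hc.dv, pb_pc k, pb_pc k, sub_add_cancel]
  have a2 : ∀ Q q, Up ι N q Q → Av Q = μ q := fun Q q u => by
    obtain ⟨τ, k⟩ := (pt l hl).1 Q u.mem
    rw [a1 Q τ u.mem k, rp.eq q τ (u.sm d k)]
  have a3 : ∀ Q, Av Q ≠ 0 → ∃ q, Up ι N q Q := fun Q e => by
    have m : jL _ ∈ Q.1 := by_contra fun m => e (by rw [av, if_neg m])
    obtain ⟨τ, k⟩ := (pt l hl).1 Q m
    exact (rp.sup τ (a1 Q τ m k ▸ e)).imp fun q u => up_of_sm u k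
  have a4 : ∀ g ∈ dec P, ∀ Q, Av Q ≠ 0 → Av (σ g • Q) = Av Q := fun g hg Q e => by
    obtain ⟨q, u⟩ := a3 Q e
    rw [a2 _ _ (u.gal hN s h hg), a2 _ _ u, iq g hg]
  have a5 : ∀ g ∈ dec P, ∀ Q, Av (σ g • Q) = Av Q := fun g hg Q => by
    by_cases e : Av (σ g • Q) = 0
    · by_contra k
      exact k (a4 g hg Q fun c => k (e.trans c.symm))
    · have := a4 g⁻¹ (inv_mem hg) _ e
      rw [map_inv, inv_smul_smul] at this
      exact this.symm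
  have cu : ∀ Q : Plk Qb (L (Gamma l)), jL _ ∉ Q.1 → Val Q f 1 := fun Q m => hc.cu l f Q hl d rfl m
  have dv' : ∀ Q, jL _ ∈ Q.1 → ord Q f = Av Q - (pb x y (t + R) Q - pb x y t Q) := fun Q m => by
    rw [av, if_pos m, add_sub_cancel_right]
  refine ⟨Av, ⟨fun Q m => ?_, fun Q r γ m k a => ?_⟩, f0, fun g hg => ?_, a5,
    fun Q m => ⟨cu Q m, by rw [av, if_neg m]⟩, dv'⟩
  · obtain ⟨q, u⟩ := a3 Q (Finsupp.mem_support_iff.1 m)
    refine ⟨q, Finsupp.mem_support_iff.2 (a2 Q q u ▸ Finsupp.mem_support_iff.1 m), ?_⟩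
    rintro r rfl
    exact u.at X hl d
  · obtain ⟨τ, u⟩ := rp.ex _ k
    obtain ⟨h0, h1⟩ := rt hl.pos u.ne u.lt
    exact a2 _ _ (up_of_at hl.pos h0 h1 m a)
  · have hx : (σ g).1 x = x := Subtype.ext ((s g x).trans (xy g).1)
    have hy : (σ g).1 y = y := Subtype.ext ((s g y).trans (xy g).2)
    have g0 : (σ g).1 f ≠ 0 := (map_ne_zero _).2 f0
    have c' : ∀ Q : Plk Qb (L (Gamma l)), jL _ ∉ Q.1 → Val Q ((σ g).1 f) 1 := fun Q m => by
      obtain ⟨W, rfl⟩ := MulAction.surjective (σ g) Q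
      have := (val_sm (s.cst g) W f 1).2 (cu W fun k => m ((s.j g W).2 k))
      rwa [map_one] at this
    have e : ∀ Q : Plk Qb (L (Gamma l)), ord Q ((σ g).1 f) = ord Q f := fun Q => by
      by_cases m : jL _ ∈ Q.1
      · obtain ⟨W, rfl⟩ := MulAction.surjective (σ g) Q
        change jL _ ∈ (σ g • W).1 at m
        show ord (σ g • W) _ = ord (σ g • W) _
        rw [ord_sm, dv' _ m, dv' W ((s.j g W).1 m), a5 g hg,
          pb_sm (s.cst g) hx hy ((add_mem ht hR) g hg), pb_sm (s.cst g) hx hy (ht g hg)]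
      · rw [((c' Q m).unit one_ne_zero).2, ((cu Q m).unit one_ne_zero).2]
    obtain ⟨c, k⟩ := (dv_eq_zero_iff (k := Qb) (mul_ne_zero g0 (inv_ne_zero f0))).1
      (Finsupp.ext fun Q => by
        rw [dv_apply, ord_mul Q g0 (inv_ne_zero f0), ord_inv, e, add_neg_cancel]; rfl)
    obtain ⟨Q, m⟩ := exists_pole (jL_ne (Gamma l))
    have m' : jL _ ∉ Q.1 := fun k => ((mem_iff_ord _ _).1 k).elim
      (fun z => by rw [z, ord_zero] at m; exact m.false) fun z => (z.trans_lt m).false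
    rw [mul_inv_eq_iff_eq_mul₀ f0] at k
    have := (c' Q m').unique (k ▸ (P027M.K.Val.const Q c).mul (cu Q m'))
    rw [k, mul_one] at *
    rw [← this, map_one, one_mul]

end Vale.Agent.P014U.Rc
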