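import Vale.Agent.P014U.Sb.Cnt
import Vale.Agent.P014U.Rc.Plq
import Vale.Agent.P014U.Sy.Wt
import Vale.Agent.P014T.Rc.Fev

/-! # P014U, block REC, row FEV: the fibres over the disc (helper42) -/

set_option linter.all false
set_option autoImplicit false

open scoped Classical MatrixGroups
open CongruenceSubgroup NumberField Finset

noncomputable section

namespace Vale.Agent.P014U.Rc

open Vale.Agent.P022 (Qb GQ)
open Vale.Agent.P022D.W (dec)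
open X4S.Ga (K O)
open X4S.Aq (cy O_of O_mul O_cy)
open X4F.Rc (mq hn)
open Vale.Agent.P027M.M
open P027M.K (Val SL)
open Vale.Agent.P019P
open Vale.Agent.P022K.QT.Cu (E E_nat)
open Ah P014T.Dc Sy Sy.Fd
open P014T.Sg (sF)
open Sb (Gd Lm)

variable [Pp]

namespace Fv

export Vale.Agent.P014T.Rc.Fv (Rw dt Rs mr mt sh mem_Rs b1 b2 b3 b4 b5 b6 b7 mt_neg neg_ne neg_mem
  w0 cyc1 eta gal_u)

/-- a covering given by its graph -/
theorem cover {X Y : Type} [Nonempty X] {D : Subgroup GQ} {α : GQ → X → X} {S : Finset X}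
    {β : GQ → Y → Y} {R : Finset Y} (r : Y → X → Prop) (d : Ds D β R)
    (ex : ∀ y ∈ R, ∃ x ∈ S, r y x) (un : ∀ y ∈ R, ∀ x x', r y x → r y x' → x = x')
    (eq : ∀ g ∈ D, ∀ y ∈ R, ∀ x, r y x → r (β g y) (α g x)) (su : ∀ x ∈ S, ∃ y ∈ R, r y x) :
    Ds D α S ∧ ∃ π, Mp D β R α S π ∧ ∀ y ∈ R, ∀ x, π y = x ↔ r y x := by
  choose! π m k using ex
  have e : ∀ g ∈ D, ∀ y ∈ R, π (β g y) = α g (π y) := fun g hg y hy =>
    un _ (d.mem g hg y hy) _ _ (k _ (d.mem g hg y hy)) (eq g hg y hy _ (k y hy))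
  have s : ∀ x ∈ S, ∃ y ∈ R, π y = x := fun x hx =>
    (su x hx).imp fun y h => ⟨h.1, un y h.1 _ _ (k y h.1) h.2⟩
  refine ⟨⟨fun g hg x hx => ?_, fun x hx => ?_, fun g hg j hj x hx => ?_, fun x hx g hg => ?_⟩,
    π, ⟨m, e⟩, fun y hy x => ⟨fun c => c ▸ k y hy, un y hy _ _ (k y hy)⟩⟩ <;>
    obtain ⟨y, hy, rfl⟩ := s x hx
  · exact e g hg y hy ▸ m _ (d.mem g hg y hy)
  · rw [← e 1 (one_mem _) y hy, d.one y hy]
  · rw [← e _ (mul_mem hg hj) y hy, ← e j hj y hy, ← e g hg _ (d.mem j hj y hy), d.mul g hg j hj y hy]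
  · filter_upwards [d.lc y hy g hg, self_mem_nhdsWithin] with j a b
    rw [← e j b y hy, ← e g hg y hy, a]

variable {ι : Qb →+* ℂ_[pp]} {P : Ideal (𝓞 Qb)} {l N : ℕ} [NeZero l] {g j : GQ}

variable (ι) in
/-- the roots of unity -/
def zt (b : ZMod l) : ℂ_[pp] := ι (E (1 / l)) ^ b.val

theorem z_prim : IsPrimitiveRoot (ι (E (1 / l))) l :=
  (Sb.E_prim (NeZero.pos l)).map_of_injective ι.injective

theorem zt_nat (m : ℕ) : zt ι (m : ZMod l) = ι (E (1 / l)) ^ m :=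
  pow_eq_pow_of_modEq ((ZMod.natCast_eq_natCast_iff _ _ _).1 (ZMod.natCast_zmod_val _))
    z_prim.pow_eq_one

theorem zt_add (a b : ZMod l) : zt ι (a + b) = zt ι a * zt ι b := by
  rw [zt, zt, zt, ← pow_add, ← zt_nat, ← zt_nat, Nat.cast_add, ZMod.natCast_zmod_val,
    ZMod.natCast_zmod_val, ZMod.natCast_zmod_val]

theorem zt_mul (a b : ZMod l) : zt ι (a * b) = zt ι a ^ b.val := by
  rw [zt, zt, ← pow_mul, ← zt_nat, ← zt_nat, Nat.cast_mul, ZMod.natCast_zmod_val,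
    ZMod.natCast_zmod_val, ZMod.natCast_zmod_val]

theorem zt_inj : Function.Injective (zt ι (l := l)) := fun a b e =>
  ZMod.val_injective l (z_prim.pow_inj a.val_lt b.val_lt e)

theorem zt_ne (a : ZMod l) : zt ι a ≠ 0 := pow_ne_zero _ (z_prim.ne_zero (NeZero.ne l))

theorem zt_E (a : ZMod l) : zt ι a = ι (E (((a.val : ℤ) : ℚ) / l)) := by
  rw [zt, ← map_pow, ← E_nat, mul_one_div, Int.cast_natCast]

variable (ι l) in
/-- the exponent of a root of unity -/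
def lz (x : ℂ_[pp]) : ZMod l := Function.invFun (zt ι) x

theorem zt_lz {x : ℂ_[pp]} (h : x ^ l = 1) : zt ι (lz ι l x) = x := by
  obtain ⟨i, -, e⟩ := (z_prim (ι := ι)).eq_pow_of_pow_eq_one h
  exact Function.invFun_eq ⟨i, (zt_nat i).trans e⟩

variable (h : Ind ι P) (μ : ℂ_[pp] →₀ ℤ) (t : ℂ_[pp] → ℂ_[pp])

variable (l) in
/-- the divisor with the roots of its points -/
structure Tt : Prop where
  ok : Ok μ
  iq : Iq h μ
  rt : ∀ q ∈ μ.support, t q ^ l = q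

/-- the point attached to a row -/
def xx (ι : Qb →+* ℂ_[pp]) (q : ℂ_[pp]) (v : Rw l) : ℂ_[pp] := zt ι v.2 * t q ^ v.1.val

/-- the action on rows -/
def ar (g : GQ) (q : ℂ_[pp]) (v : Rw l) : Rw l :=
  sh (lz ι l (h.ro g (ι (E (1 / l))))) (lz ι l (h.ro g (t q) / t (h.ro g q))) v

/-- the action on the matrices over the disc -/
def ac (g : GQ) (r : ℂ_[pp] × Rw l × Rw l) : ℂ_[pp] × Rw l × Rw l :=
  (h.ro g r.1, ar h t g r.1 r.2.1, ar h t g r.1 r.2.2)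

variable {h μ t} {q : ℂ_[pp]}

theorem Tt.mem (T : Tt l h μ t) (hg : g ∈ dec P) (m : q ∈ μ.support) : h.ro g q ∈ μ.support := by
  rwa [Finsupp.mem_support_iff, T.iq g hg, ← Finsupp.mem_support_iff]

theorem Tt.tq (T : Tt l h μ t) (m : q ∈ μ.support) :
    t q ≠ 0 ∧ ‖t q‖ < 1 ∧ t q ∈ AA ∧ Gd (t q) := by
  have a := T.ok q m
  rw [← T.rt q m] at a
  exact ⟨(Pq.rt (NeZero.pos l) a.1 a.2.1).1, (Pq.rt (NeZero.pos l) a.1 a.2.1).2,
    AA_rt (NeZero.pos l) a.2.2.1, a.2.2.2.root (NeZero.pos l)⟩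

theorem Tt.b (T : Tt l h μ t) (hg : g ∈ dec P) (m : q ∈ μ.support) :
    h.ro g (t q) = zt ι (lz ι l (h.ro g (t q) / t (h.ro g q))) * t (h.ro g q) := by
  have m' := T.mem hg m
  rw [zt_lz, div_mul_cancel₀ _ (T.tq m').1]
  rw [div_pow, ← map_pow, T.rt q m, T.rt _ m', div_self (T.ok _ m').1]

theorem kz (h : Ind ι P) (hg : g ∈ dec P) {k : ℤ} (y : Cyc l g k) :
    lz ι l (h.ro g (ι (E (1 / l)))) = k := zt_inj (ι := ι) (by
  rw [zt_lz (by rw [← map_pow, z_prim.pow_eq_one, map_one]), h.ro_emb hg, Sb.cyc_E.1 y, zt_E,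
    (Sb.E_iff (k' := (k : ZMod l).val) (NeZero.pos l)).2 (by simp)])

theorem Tt.xx (T : Tt l h μ t) (hg : g ∈ dec P) (m : q ∈ μ.support) (v : Rw l) :
    xx t ι (h.ro g q) (ar h t g q v) = h.ro g (xx t ι q v) := by
  rw [Fv.xx, Fv.xx, map_mul, map_pow, T.b hg m, zt.eq_1 ι v.2, map_pow, ar, sh, zt_add, zt_mul, zt_mul,
    zt_lz (by rw [← map_pow, z_prim.pow_eq_one, map_one]), mul_pow, mul_assoc]

theorem Tt.inj (T : Tt l h μ t) (m : q ∈ μ.support) {v w : Rw l} (e : v.1 = w.1)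
    (e' : Fv.xx t ι q v = Fv.xx t ι q w) : v = w := by
  rw [Fv.xx, Fv.xx, e] at e'
  exact Prod.ext e (zt_inj (mul_right_cancel₀ (pow_ne_zero _ (T.tq m).1) e'))

theorem Tt.ds (T : Tt l h μ t) (γ : SL(2, ℤ)) : Ds (dec P) (ac h t) (μ.support ×ˢ Rs N l γ) := by
  refine ⟨fun g hg r m => ?_, fun r m => ?_, fun g hg j hj r m => ?_, fun r m => ?_⟩ <;>
    rw [mem_product] at m
  · obtain ⟨k, c, y⟩ := (serg l (NeZero.pos l) g).1
    refine mem_product.2 ⟨T.mem hg m.1, mem_Rs.2 ⟨?_, (mem_Rs.1 m.2).2⟩⟩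
    have : dt (ac h t g r).2 = k * dt r.2 := by
      simp only [dt, ac, ar, sh, kz h hg y]
      ring
    exact this ▸ ((ZMod.coe_int_isUnit_iff_isCoprime _ _).2 c.symm).mul (mem_Rs.1 m.2).1
  · have e (v) : ar h t 1 r.1 v = v := T.inj m.1 rfl (by
      simpa only [h.ro_one] using T.xx (one_mem _) m.1 v)
    simp only [ac, e, h.ro_one]
  · have e (v) : ar h t (g * j) r.1 v = ar h t g (h.ro j r.1) (ar h t j r.1 v) :=
      T.inj (T.mem (mul_mem hg hj) m.1) rfl (by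
        rw [T.xx (mul_mem hg hj) m.1, h.ro_mul hg hj, h.ro_mul hg hj, T.xx hg (T.mem hj m.1),
          T.xx hj m.1])
    simp only [ac, e, h.ro_mul hg hj]
  · exact (((h.ro_lc (T.ok _ m.1).2.2.1).two (h.ro_lc (T.tq m.1).2.2.1) Prod.mk).two
      (h.ro_lc (emb_AA ι (E (1 / l)))) fun a b => (a.1, sh (lz ι l b) (lz ι l (a.2 / t a.1)) r.2.1,
        sh (lz ι l b) (lz ι l (a.2 / t a.1)) r.2.2))

theorem Tt.gg (T : Tt l h μ t) (R : Finset (Rw l × Rw l)) :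
    (fun r : ℂ_[pp] × Rw l × Rw l => t r.1 ^ l) ∈ h.fd.G (ac h t) (μ.support ×ˢ R) ∧
    (fun r : ℂ_[pp] × Rw l × Rw l => Fv.xx t ι r.1 r.2.1) ∈ h.fd.G (ac h t) (μ.support ×ˢ R) ∧
    (fun r : ℂ_[pp] × Rw l × Rw l => Fv.xx t ι r.1 r.2.2) ∈ h.fd.G (ac h t) (μ.support ×ˢ R) := by
  have a {q} (m : q ∈ μ.support) (v : Rw l) : Fv.xx t ι q v ≠ 0 ∧ Fv.xx t ι q v ∈ AA :=
    ⟨mul_ne_zero (zt_ne _) (pow_ne_zero _ (T.tq m).1),
      mul_mem (pow_mem (emb_AA ι _) _) (pow_mem (T.tq m).2.2.1 _)⟩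
  refine ⟨fun r m => ?_, fun r m => ?_, fun r m => ?_⟩ <;> replace m := (mem_product.1 m).1
  · exact ⟨pow_ne_zero _ (T.tq m).1, pow_mem (T.tq m).2.2.1 _, fun g hg =>
      (congrArg _ (T.rt _ m)).trans (T.rt _ (T.mem hg m)).symm⟩
  · exact ⟨(a m _).1, (a m _).2, fun g hg => (T.xx hg m _).symm⟩
  · exact ⟨(a m _).1, (a m _).2, fun g hg => (T.xx hg m _).symm⟩

variable [CFF Qb (L (Gamma l))] {X : Mdl} {σ : GQ →* SL Qb (L (Gamma l))} {J : Type} {s : J → GQ}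
  {p : GQ → J → J} {κ : J → ℤ} {w : ZMod l → ℤ} {γ : SL(2, ℤ)} {Av : Plk Qb (L (Gamma l)) →₀ ℤ}
  {r r' : ℂ_[pp] × Rw l × Rw l} {x x' : Plk Qb (L (Gamma l)) × J} {c n : ℕ} {u : L (Gamma l)}

variable (X ι t γ κ) in
/-- the place and the coset attached to a matrix -/
def Rl (r : ℂ_[pp] × Rw l × Rw l) (x : Plk Qb (L (Gamma l)) × J) : Prop :=
  ∃ δ, mt γ δ (κ x.2 : ZMod l) = r.2 ∧ At ι l (t r.1) (eg X δ _) x.1

theorem Rl.dt (a : Rl ι t X κ γ r x) : dt r.2 = κ x.2 := a.elim fun δ e => e.1 ▸ b1 γ δ _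

theorem Rl.un (W : Wt l (dec P) s p κ w) (a : Rl ι t X κ γ r x) (b : Rl ι t X κ γ r x') : x = x' := by
  have e := Sb.wt_inj (NeZero.pos l) W.tr W.cyc (a.dt.symm.trans b.dt)
  obtain ⟨δ, a1, a2⟩ := a
  obtain ⟨δ', b1, b2⟩ := b
  rw [← b1, ← e, b4 (w0 W _)] at a1
  rw [← eg_left X a1, inv_mul_cancel_right] at b2
  exact Prod.ext (a2.uniq (NeZero.pos l) b2) e

theorem Rl.av (T : Tt l h μ t) (d : N ∣ l) (A : Ab X ι N l μ Av) (m : r ∈ μ.support ×ˢ Rs N l γ)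
    (a : Rl ι t X κ γ r x) : Av x.1 = μ r.1 := by
  obtain ⟨m1, m2⟩ := mem_product.1 m
  have u := a.dt ▸ (mem_Rs.1 m2).1
  obtain ⟨δ, a1, a2⟩ := a
  rw [A.eq _ _ δ ((b2 d u).1 (a1 ▸ m2)) (by rwa [T.rt _ m1]) a2, T.rt _ m1]

theorem Rl.gal (T : Tt l h μ t) (hl : Lv l) (G : Ga X σ) (W : Wt l (dec P) s p κ w) (hg : g ∈ dec P)
    (m : r.1 ∈ μ.support) (a : Rl ι t X κ γ r x) :
    Rl ι t X κ γ (ac h t g r) (σ g • x.1, p g x.2) := by
  obtain ⟨k, c, y⟩ := (serg l hl.pos g).1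
  obtain ⟨δ, a1, a2⟩ := a
  obtain ⟨δ', tw, e⟩ := b5 δ (lz ι l (h.ro g (t r.1) / t (h.ro g r.1))).val c
  refine ⟨_, (congrArg (mt γ _) (Sb.wt_act hl.pos W.tr W.cyc y _)).trans
    ((congrArg₂ Prod.mk (e γ _ 0) (e γ _ 1)).trans ?_), ?_⟩
  · simp only [mt, ac, ar, kz h hg y, ← a1, Int.cast_natCast, ZMod.natCast_zmod_val]
  have := a2.conj (e' := eg X δ' _) X hl.pos (h.ro g) (h.ro_nrm g) (h.ro_emb hg) (σ g).1 (G.cst g)
    (fun z => by rw [eg_apply, eg_apply, G g, (x_shim X l hl g _ y).2 δ δ' tw _ ((L_Gt X l).ge z.2)])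
    (P014T.Ts.sm_mem (σ g) x.1)
  rw [T.b hg m, zt_E] at this
  rw [← eg_comp]
  exact this.tr X hl.pos _

theorem Rl.fib (T : Tt l h μ t) (hl : Lv l) (W : Wt l (dec P) s p κ w) (m : r.1 ∈ μ.support)
    (m' : r'.1 ∈ μ.support) (a : Rl ι t X κ γ r x) :
    Rl ι t X κ γ r' x ↔ r' = r ∨ r' = (r.1, -r.2) := by
  obtain ⟨δ, a1, a2⟩ := a
  refine ⟨fun ⟨δ', b1, b2⟩ => ?_, fun e => e.elim (fun e => e ▸ ⟨δ, a1, a2⟩) fun e =>
    e ▸ ⟨-δ, by rw [mt_neg, a1], by rwa [eg_neg]⟩⟩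
  obtain ⟨y, c1, c2⟩ := a2.j hl.pos (T.tq m).1 (T.tq m).2.1 (eg_j X δ)
  obtain ⟨y', d1, d2⟩ := b2.j hl.pos (T.tq m').1 (T.tq m').2.1 (eg_j X δ')
  rw [T.rt _ m, c2.unique d2, d1, T.rt _ m'] at c1
  have e := jv_inj (T.ok _ m').1 (T.ok _ m').2.1 (T.ok _ m).1 (T.ok _ m).2.1 c1
  rw [e, fib_iff X hl le_rfl (T.tq m).1 (T.tq m).2.1 a2, ← neg_mul, ← b4 (γ := γ) (w0 W x.2),
    ← b4 (γ := γ) (w0 W x.2), mt_neg, a1, b1] at b2
  exact b2.imp (fun k => Prod.ext e k.symm) fun k => Prod.ext e k.symm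

section unit

variable (hl : Lv l) (G : Ga X σ) (W : Wt l (dec P) s p κ w) (hc : c ^ 2 % 24 = 1)
  (cl : c.Coprime l) {i : Fin 2} (hu : (u : FF) = sF c (rg l γ i))
include hl G hc cl hu

include W

theorem Rl.val (T : Tt l h μ t) (m : r.1 ∈ μ.support) (a : Rl ι t X κ γ r x) :
    ∃ y, Val x.1 ((σ (s x.2)).1 u) y ∧ ι y ≠ 0 ∧
      Vf ι l (t r.1) (sF c (rw l (![r.2.1, r.2.2] i))) (ι y) := by
  obtain ⟨δ, a1, a2⟩ := a
  obtain ⟨n, e⟩ := gal_u hl G hc cl hu (W.cyc x.2)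
  have k := b7 (l := l) γ δ (κ x.2) i
  have n' := (n.vg δ).congr k
  obtain ⟨y, e1, e2⟩ := a2.sF X hc (T.tq m).1 (T.tq m).2.1 n e (ZMod.val_lt _) k
  refine ⟨y, e2, e1 ▸ sv_ne (T.tq m).1 (T.tq m).2.1 (ZMod.val_lt _) n', ?_⟩
  rw [e1, show ![r.2.1, r.2.2] i = mr γ δ (κ x.2) i by rw [← a1]; fin_cases i <;> rfl]
  exact vf_sF hc (ZMod.val_lt _) n' (T.tq m).1 (T.tq m).2.1

theorem mem_u (T : Tt l h μ t) {S : Finset (Plk Qb (L (Gamma l)) × J)}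
    (su : ∀ x ∈ S, ∃ r, r.1 ∈ μ.support ∧ Rl ι t X κ γ r x) :
    (fun y => ι (P025H492.vl y.1 ((σ (s y.2)).1 u))) ∈
      h.fd.G (fun g y => (σ g • y.1, p g y.2)) S := fun x hx => by
  obtain ⟨r, m, a⟩ := su x hx
  obtain ⟨y, v, y0, -⟩ := a.val hl G W hc cl hu T m
  simp only [P025H492.vl_eq v]
  refine ⟨y0, emb_AA ι y, fun g hg => (h.ro_emb hg y).trans (congrArg ι (P025H492.vl_eq ?_).symm)⟩
  have e : (σ (P014T.Kc.ta s p g x.2)).1 u = u := Subtype.ext (by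
    rw [(gal_u hl G hc cl hu (cyc1 (W.tr.ta_mem trivial x.2))).2, hu, Int.cast_one, one_mul, ← eta])
  have := (Pq.val_sm (G.cst g) _ _ _).2 v
  rwa [← P014T.Ts.sl_mul, ← map_mul, ← P014T.Kc.ta_eq (r := s) (p := p), map_mul, P014T.Ts.sl_mul, e] at this

end unit

theorem O_cyi (g : GQ) : (cy g)⁻¹ ∈ O := map_inv cy g ▸ O_cy g⁻¹

theorem cy0 (g : GQ) : cy g ≠ 0 := norm_ne_zero_iff.1 (by simp [X4S.Aq.cy_norm])

end Fv

open Fv in
theorem fev (evl : EVAL) : FEV := by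
  intro X ι P h M n l _ _ e0 n0 M2
  have l0 := NeZero.pos l
  have M0 : 0 < M := Nat.pos_of_ne_zero fun c => l0.ne' (by rw [e0, c, zero_mul])
  have d2 : pp ^ n ∣ l := e0 ▸ dvd_mul_left _ _
  have hl : Lv l := ⟨l0, e0 ▸ M2.mul_right _⟩
  obtain ⟨e', o, H⟩ := evl ι P h M n l e0 n0 M0 ((show 2 ∣ 4 by norm_num).trans M2)
  refine ⟨e', o, fun σ N c d γ u v J _ s p κ w μ Av t e G dN A hu hv W ok iq al B rt => ?_⟩
  have T : Tt l h μ t := ⟨ok, iq, rt⟩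
  have := nonempty_Plk Qb (L (Gamma l))
  have := W.ne
  have f1 {r : ℂ_[pp] × Rw l × Rw l} (m : r ∈ μ.support ×ˢ Rs N l γ) := (mem_product.1 m).1
  have su : ∀ x ∈ Av.support ×ˢ (univ : Finset J), ∃ r ∈ μ.support ×ˢ Rs N l γ,
      Rl ι t X κ γ r x := fun x m => by
    obtain ⟨q, m, k⟩ := B.sup _ (mem_product.1 m).1
    obtain ⟨δ, m', a⟩ := k _ (rt q m)
    exact ⟨(q, mt γ δ (κ x.2)), mem_product.2 ⟨m, (b2 dN (w0 W _)).2 m'⟩, δ, rfl, a⟩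
  obtain ⟨ds, π, mp, hπ⟩ := cover (α := fun g y => (σ g • y.1, p g y.2)) (Rl ι t X κ γ) (T.ds γ)
    (fun r m => by
      obtain ⟨i, a⟩ := Sb.wt_onto l0 W.tr W.cyc (mem_Rs.1 (mem_product.1 m).2).1
      obtain ⟨δ, b⟩ := b3 γ (mem_Rs.1 (mem_product.1 m).2).1
      obtain ⟨y, k⟩ := al _ (f1 m)
      obtain ⟨Q, k, -⟩ := ex_fib X l0 le_rfl (T.tq (f1 m)).1 (T.tq (f1 m)).2.1
        (by rwa [rt _ (f1 m)]) δ
      have z : Rl ι t X κ γ r (Q, i) := ⟨δ, a ▸ b, k⟩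
      exact ⟨_, mem_product.2 ⟨Finsupp.mem_support_iff.2 (z.av T dN B m ▸
        Finsupp.mem_support_iff.1 (f1 m)), mem_univ _⟩, z⟩)
    (fun _ _ _ _ => Rl.un W) (fun g hg r m x => Rl.gal T hl G W hg (f1 m)) su
  have z (r) (m) := (hπ r m _).1 rfl
  have su' := fun x m => (su x m).imp fun r k => And.intro (f1 k.1) k.2
  have gu := mem_u hl G W A.c24 A.cl hu T su'
  have gv := mem_u hl G W A.d24 A.dl hv T su'
  let τ : Plk Qb (L (Gamma l)) × J → K := fun y => (Av y.1 * w (κ y.2) : ℤ) * (cy (s y.2))⁻¹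
  have tw : Tw (dec P) (fun g y => (σ g • y.1, p g y.2)) (Av.support ×ˢ univ) n τ := by
    refine ⟨fun x _ => O_mul (O_z _) (O_cyi _), fun g hg x m => ?_⟩
    obtain ⟨r, m, a⟩ := su x m
    have k : Av (σ g • x.1) = Av x.1 := ((a.gal T hl G W hg (f1 m)).av T dN B
      ((T.ds γ).mem g hg r m)).trans ((iq g hg _).trans (a.av T dN B m).symm)
    refine O_of (O_mul (O_mul (O_z (Av x.1 * w (κ x.2))) (O_cyi (s x.2)))
      (Sb.cyk l0 d2 (cyc1 (W.tr.ta_mem (x := g) trivial x.2)))) ?_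
    have := cy0 (s x.2)
    simp only [τ, k, W.inv g hg, P014T.Kc.ta, map_mul, map_inv]
    field_simp
    push_cast
    ring
  obtain ⟨g1, g2, g3⟩ := T.gg (Rs N l γ)
  obtain ⟨θ, a1, a2⟩ := H c d _ _ _ (τ ∘ π) (fun r => μ r.1 * w (dt r.2)) (·.2.1) (·.2.2)
    (fun r => t r.1) _ _ A.c24 A.d24 A.cl A.dl (T.ds γ) (tw.pull mp) (G_pull gu mp) (G_pull gv mp)
    g1 g2 g3 (fun g hg r m => ⟨by
      rw [((z r m).gal T hl G W hg (f1 m)).dt, W.inv g hg, (z r m).dt]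
      exact congrArg (· * _) (iq g hg _), rfl, rfl⟩) fun r m => by
      obtain ⟨y, v1, -, k1⟩ := (z r m).val hl G W A.c24 A.cl hu T (f1 m)
      obtain ⟨y', v2, -, k2⟩ := (z r m).val hl G W A.d24 A.dl hv T (f1 m)
      have b := b6 dN A.g0 A.g1 (mem_product.1 m).2
      refine ⟨(T.tq (f1 m)).2.1, (T.tq (f1 m)).2.2.2, b.1, b.2, (mem_Rs.1 (mem_product.1 m).2).1, ?_,
        by rwa [Function.comp, P025H492.vl_eq v1], by rwa [Function.comp, P025H492.vl_eq v2]⟩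
      obtain ⟨k, e1⟩ := (Int.natCast_dvd_natCast.2 d2).trans
        ((ZMod.intCast_eq_intCast_iff_dvd_sub (κ (π r).2) (dt r.2).val l).1 (by simp [(z r m).dt]))
      have e2 := congrArg (Int.cast (R := K)) e1
      refine O_of (O_mul (O_mul (O_z (μ r.1 * w (dt r.2))) (O_cyi (s (π r).2)))
        (sub_mem (O_z k) (Sb.cyk l0 d2 (W.cyc (π r).2)))) ?_
      have := cy0 (s (π r).2)
      have e3 := X4F.Rc.hn_mul n
      change hn n * (τ (π r) * (dt r.2).val - _) = _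
      simp only [τ, (z r m).av T dN B m, ← (z r m).dt]
      push_cast at e2 ⊢
      field_simp
      linear_combination (μ r.1 * w (dt r.2) : K) * (hn n * e2 + k * e3)
  refine ⟨θ, ?_, ?_⟩
  · rw [a1, sum_product]
    refine sum_congr rfl fun q m => ?_
    refine .trans ?_ (congrArg _ (Sb.lin two_C (T.tq m).2.1 z_prim.pow_eq_one A.cl A.dl _ _
      W.un (fun _ => mem_Rs) fun _ => b6 dN A.g0 A.g1).symm)
    rw [mul_sum]
    exact sum_congr rfl fun Y _ => by rw [Int.cast_mul, mul_assoc]; rfl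
  · rw [pull (F := h.fd) (m := 2) mp ds (T.ds γ) tw gu gv fun x m => ?_, smul_smul, two_mul] at a2
    · rw [sy2, show (fun y : Plk Qb (L (Gamma l)) × J => ((e * Av y.1 * w (κ y.2) : ℤ) : K) *
        (cy (s y.2))⁻¹) = fun y => e * τ y from funext fun y => by simp only [τ]; push_cast; ring,
        sym_smul (F := h.fd) (m := e) ds tw gu gv (O_z e) (by simp), smul_comm, show 4 = 2 + 2 from rfl, a2,
        ← map_zsmul]
      congr 1
      rw [zsmul_eq_mul]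
      ring
    obtain ⟨r, k, a⟩ := su x m
    obtain ⟨k1, k2⟩ := mem_product.1 k
    refine card_eq_two.2 ⟨r, (r.1, -r.2), fun c =>
      neg_ne hl.four (mem_Rs.1 k2).1 (congrArg Prod.snd c).symm, Finset.ext fun r' => ?_⟩
    rw [mem_filter, mem_insert, mem_singleton]
    refine ⟨fun c => (a.fib T hl W k1 (f1 c.1)).1 ((hπ _ c.1 _).1 c.2), fun c => ?_⟩
    have k' : r' ∈ μ.support ×ˢ Rs N l γ :=
      c.elim (· ▸ k) (· ▸ mem_product.2 ⟨k1, neg_mem dN k2⟩)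
    exact ⟨k', (hπ _ k' _).2 ((a.fib T hl W k1 (f1 k')).2 c)⟩

end Vale.Agent.P014U.Rc
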