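import Vale.Agent.P014U.Rc.Hk
import Vale.Agent.P014T.Rc.Mt

/-!
# P014U, block REC, row MT: points of the disc and points of the upper half plane
-/

set_option autoImplicit false
set_option linter.all false

open scoped Classical MatrixGroups UpperHalfPlane
open CongruenceSubgroup
open P027M.K (Val)

noncomputable section

namespace Vale.Agent.P014U.Rc

open Vale.Agent.P022 Vale.Agent.P027M.M Vale.Agent.P022.H231.L3 Vale.Agent.P022.H218.L3 P014T.Dc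
open Vale.Agent.P019P Vale.Agent.P022K.F0.Cf
open Vale.Agent.P004Z.Ar (mb_SL stab4)

variable [Pp]

namespace Mt

export Vale.Agent.P014T.Rc.Mt (val_pg val_od mem conj)

variable {ι : Qb →+* ℂ_[pp]} {M N : ℕ} {t t' : ℂ_[pp]} {τ τ' : ℍ} {Γ : Subgroup SL(2, ℤ)}
  {γ : SL(2, ℤ)}

theorem ex (hM : 0 < M) (hN : 0 < N) (h : Gamma N ≤ Γ) (hT : ModularGroup.T ^ M ∈ Γ) {a : Qb}
    (h0 : t ≠ 0) (h1 : ‖t‖ < 1) (ha : jv (t ^ M) = ι a) : ∃ τ, Sm ι M Γ t τ := by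
  haveI := cff _ (fi_gamma hN h)
  obtain ⟨P, hP, k⟩ := ex_at_j (ι := ι) (e := algebraMap (L Γ) FF) hM
    (fun z => lf_of_mem hM hT z.2) (fun _ => rfl) h0 h1 (j := jL _) rfl ha
  obtain ⟨τ, p⟩ := P014T.Uy.ex_pt (e := (L Γ).val) (j := jL Γ) rfl (mem_iff_val.2 ⟨a, k⟩)
  refine ⟨τ, h0, h1, ⟨a, ha⟩, fun f hf b => (hP ⟨f, hf⟩ b).symm.trans ?_⟩
  rw [val_od, Val, mem_Mge, ← cv_alg, ← map_sub, map_eq_zero]
  exact or_congr (by rw [← Subtype.val_inj]; rfl) p.pos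

theorem vj (hM : 0 < M) (h : Sm ι M Γ t τ) :
    ∃ a, jv (t ^ M) = ι a ∧ P004Z.EF.Val τ (cv jF) (io a) :=
  h.alg.imp fun a e => ⟨e, (h.val _ (jF_mem _) a).1 (e ▸ vf_j hM h.ne h.lt)⟩

theorem smu (h : Sm ι M Γ t τ) (k : γ ∈ Γ) : Sm ι M Γ t (γ • τ) := by
  obtain ⟨X⟩ := mdl
  exact ⟨h.ne, h.lt, h.alg, fun f hf a => by
    rw [← val_pg X, (Hec.mem_L_iff X).1 hf γ k, h.val f hf]⟩

end Mt

open Mt in
/-- **row MT** -/
theorem mt (pt : PT) : MT := by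
  intro ι M l Γ hM hl h hT
  refine ⟨fun t a => ex hM hl h hT, fun t τ s => ?_⟩
  obtain ⟨X⟩ := mdl
  have hN : Lv (l * 4) := ⟨by omega, dvd_mul_left _ _⟩
  have h' : Gamma (l * 4) ≤ Γ := gamma_le.trans h
  haveI := cff (Gamma (l * 4)) (fi_gamma hN.pos le_rfl)
  obtain ⟨-, p2, p3⟩ := pt _ hN
  obtain ⟨a, ha, va⟩ := vj hM s
  obtain ⟨Q, hQ⟩ := p2 τ a va
  have q0 := pow_ne_zero M s.ne
  have q1 : ‖t ^ M‖ < 1 := by rw [norm_pow]; exact pow_lt_one₀ (norm_nonneg _) s.lt hM.ne'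
  refine ⟨fun γ e => ?_, fun τ' => ⟨fun s' => ?_, fun ⟨γ, k, e⟩ => e ▸ smu s k⟩, fun t' s' => ?_⟩
  · obtain ⟨r, hr⟩ := IsAlgClosed.exists_pow_nat_eq (t ^ M) hN.pos
    have r0 : r ≠ 0 := fun c => q0 (by rw [← hr, c, zero_pow hN.pos.ne'])
    have r1 : ‖r‖ < 1 := by
      rwa [← hr, norm_pow, pow_lt_one_iff_of_nonneg (norm_nonneg _) hN.pos.ne'] at q1
    obtain ⟨δ, k⟩ := all_fib X hN.pos le_rfl r0 r1 (hr ▸ ha) ((hQ.val (jL _) a).2 va)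
    obtain ⟨σ, hσ⟩ := ((artin X ⊤ (Gamma (l * 4)) le_top (fi_gamma hN.pos le_rfl)).2
      fun a _ => gamma_conj _ a).2.2 γ trivial
    have := (fib_iff X hN le_rfl r0 r1 (at_conj X hN.pos (σ : L (Gamma (l * 4)) ≃+* L (Gamma (l * 4)))
      hσ (conj X hQ (e.symm ▸ hQ) _ hσ) k)).1 k
    rw [mul_inv_cancel_right] at this
    refine stab4 hN.four (this.elim (Hk.g0 _ ·) fun c => ?_) e
    simpa [Gamma0_mem] using Hk.g0 _ c
  · obtain ⟨a', -, va'⟩ := vj hM s'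
    obtain ⟨Q', hQ'⟩ := p2 τ' a' va'
    haveI := cff Γ (fi_gamma hl h)
    obtain ⟨δ, k, σ, k1, k2⟩ := ex_conj X hN.pos h' (P := Q) (Q := Q') fun z =>
      (mem hQ _).trans ((exists_congr fun b => (s.val _ z.2 b).symm.trans (s'.val _ z.2 b)).trans
        (mem hQ' (IntermediateField.inclusion (L_mono h') z)).symm)
    obtain ⟨R, hR⟩ := p2 (δ • τ) a (by rwa [← val_pg X, pg_jF])
    obtain rfl : R = Q' := Subtype.ext (SetLike.ext fun z =>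
      (conj X hQ hR σ k1 z).symm.trans (k2 z))
    obtain ⟨γ, m, e⟩ := p3 _ _ _ hR hQ'
    exact ⟨γ * δ, mul_mem (h' m) k, by rw [mul_smul, e]⟩
  · refine jv_inj (pow_ne_zero M s'.ne) (by
      rw [norm_pow]; exact pow_lt_one₀ (norm_nonneg _) s'.lt hM.ne') q0 q1 ?_
    rw [ha]
    exact (vf_j hM s'.ne s'.lt).uniq hM ((s'.val _ (jF_mem _) a).2 va)

end Vale.Agent.P014U.Rc
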