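import Vale.Agent.P014U.Rc.St
import Vale.Agent.P014T.Rc.Par

/-! # P014U, block REC: small points of the disc (helper42) -/

set_option linter.all false

open scoped Classical MatrixGroups UpperHalfPlane
open CongruenceSubgroup NumberField PowerSeries

noncomputable section

namespace Vale.Agent.P014U.Rc

variable [Pp]

namespace Par

open Vale.Agent.P022 (Qb GQ)
open Vale.Agent.P022D.W (dec)
open X4S.Ga (K)
open Vale.Agent.P004M.TE (Cv Pt pa ga pa_some ga_some crv_map)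
open P004N (RN)
open Vale.Agent.P027M.M (Mdl FF L cv mdl)
open Ah (Ind am AA)
open P014T.Dc (Vf jL jv)
open P014T.Pu (ParY)
open Sb (Gd Lm)
open P014T.Wm (Fx)

theorem nrm_Lm {t : ℂ_[pp]} (t0 : t ≠ 0) (ht : ‖t‖ ≤ 1 / 4) {c : ℕ → ℂ_[pp]} (c0 : c 0 = 0)
    (c1 : c 1 = 1) (hc : ∀ k, ‖c k‖ ≤ 1) : ‖Lm t (mk c)‖ = ‖t‖ := by
  have p := norm_pos_iff.2 t0
  simp only [Lm, coeff_mk]
  rw [← (Sb.sm_term Ah.two_C hc (x := t) (by linarith)).sum_add_tsum_nat_add 2]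
  simp only [Finset.sum_range_succ, Finset.sum_range_zero, c0, c1, zero_mul, zero_div, zero_add,
    one_mul, pow_one, Nat.cast_one, div_one]
  rw [add_comm, P014T.Dc.norm_add_of_lt]
  refine lt_of_le_of_lt (IsUltrametricDist.norm_tsum_le_of_forall_le fun k => ?_) (half_lt_self p)
  refine (Sb.n_term Ah.two_C (hc _) _).trans ?_
  have : ((k + 2 : ℕ) : ℝ) ≤ 2 * 4 ^ k := by
    exact_mod_cast (by have := @Nat.lt_pow_self k 4 (by norm_num); omega : k + 2 ≤ 2 * 4 ^ k)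
  refine (mul_le_mul this (show ‖t‖ ^ (k + 2) ≤ (1 / 4) ^ (k + 1) * ‖t‖ by
    rw [pow_succ]; gcongr) (by positivity) (by positivity)).trans_eq ?_
  rw [pow_succ, ← mul_assoc, ← mul_assoc, mul_assoc 2, ← mul_pow]
  ring

theorem ex_q {k : ℕ} (hk : 0 < k) : ∃ q : K, am q ≠ 0 ∧ ‖am q‖ = (1 / pp) ^ k ∧ Gd (am q) ∧
    jv (am q) = ((pp : ℂ_[pp]) ^ k)⁻¹ := by
  have n : ‖((pp : K) ^ k)⁻¹‖ = pp ^ k := by rw [norm_inv, norm_pow, Ah.two_K]; simp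
  obtain ⟨q, h0, h1, h2⟩ := P014T.Dc.ex_jv (a := ((pp : K) ^ k)⁻¹)
    (n ▸ one_lt_pow₀ Sb.r_one hk.ne')
  have e : jv (am q) = ((pp : ℂ_[pp]) ^ k)⁻¹ := by
    rw [P014T.Dc.jv_map am Ah.nrm_am h1, h2, map_inv₀, map_pow, map_natCast]
  have q0 := (map_ne_zero am).2 h0
  have q1 : ‖am q‖ < 1 := by rwa [Ah.nrm_am]
  refine ⟨q, q0, inv_injective ?_, ⟨(1, k), one_pos, ?_⟩, e⟩
  · rw [Ah.nrm_am, ← P014T.Dc.norm_jv h1, h2, n]
    simp
  · rw [norm_sub_rev, pow_one, zpow_natCast, div_eq_mul_inv, ← e]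
    exact (P014T.Dc.jv_near q0 q1).trans_lt q1

variable {N : ℕ} {ι : Qb →+* ℂ_[pp]} {P : Ideal (𝓞 Qb)} {q c : ℂ_[pp]} {x : FF}

theorem alg (hN : 0 < N) (h0 : q ≠ 0) (h1 : ‖q‖ < 1) {b : Qb} (hb : jv q = ι b)
    (hx : x ∈ L (Gamma0 N)) (h : Vf ι 1 q x c) : ∃ a, ι a = c := by
  have := P014T.Dc.cff (Gamma0 N) (P014T.Dc.fi_gamma hN (P014T.Pu.g_le N))
  obtain ⟨Q, hQ, -⟩ := P014T.Dc.ex_at_j (ι := ι) (e := algebraMap (L (Gamma0 N)) FF) one_pos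
    (fun z => P014T.Dc.lf_of_mem one_pos (Gamma0_mem.2 (by rw [pow_one]; simp [ModularGroup.T])) z.2) (fun _ => rfl)
    h0 h1 (j := jL _) rfl (by rwa [pow_one])
  exact (hQ.alg one_pos (z := (⟨x, hx⟩ : L _)) (c := c) h).imp fun _ e => e.1

theorem fix (h : Ind ι P) {g : GQ} (hg : g ∈ dec P) (hq : h.ro g q = q) (hx : P014T.Pu.Rq (cv x))
    {a : Qb} (v : Vf ι 1 q x (ι a)) : g a = a := by
  obtain ⟨X⟩ := mdl
  have := v.gal X one_pos (h.ro g) (h.ro_nrm g) (h.ro_emb hg)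
  rw [hq, hx.gal X g, h.ro_emb hg] at this
  exact ι.injective (this.uniq one_pos v)

theorem pt {G I : ℍ → ℂ} {a : ℕ → ℤ} {A B : ℤ} {w : ℕ} {y : FF} (h : Ind ι P)
    {lg : Fx A B (dec P) →+ K} (r : RN N G a) (p : ParY N a A B w I (cv x) (cv y))
    (hl : Lc.Lk ι lg) : ∃ ρ : ℝ, 0 < ρ ∧ ∀ q : ℂ_[pp], q ≠ 0 → ‖q‖ < 1 → ‖q‖ ≤ ρ →
      (∃ b, jv q = ι b) → (∀ g ∈ dec P, h.ro g q = q) → ∃ R : Fx A B (dec P),
        (∃ c d n, R.1 = .some c d n ∧ Vf ι 1 q x (ι c) ∧ Vf ι 1 q y (ι d)) ∧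
        w * am (lg R) = Lm q (mk fun n => (a n : ℂ_[pp])) := by
  obtain ⟨l, k⟩ := Lc.ex_lgs A B
  obtain ⟨s, t, h1, h2, h3⟩ := P014T.Dc.pw_ex r p.toPw rfl rfl
  have e : ∀ z : ℤ, algebraMap ℚ ℂ_[pp] z = z := fun z => map_intCast _ z
  obtain ⟨ρ, k1, -, k3⟩ := P014T.Dc.par0 pp_prime Ah.two_lt ι
    ((map_intCast ι A).trans (e A).symm) ((map_intCast ι B).trans (e B).symm)
    (e A ▸ IsUltrametricDist.norm_intCast_le_one _ A)
    (e B ▸ IsUltrametricDist.norm_intCast_le_one _ B) (by rw [e, e]; exact_mod_cast p.disc) k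
    one_pos h1 h2 h3
  rw [P014T.Dc.map_gw, P014T.Dc.itg_gw] at k3
  refine ⟨ρ, k1, fun q q0 q1 q2 ⟨b, hb⟩ fx => ?_⟩
  obtain ⟨c, d, n, v1, v2, -, -, v⟩ := k3 q q0 q2
  obtain ⟨c, rfl⟩ := alg r.pos q0 q1 hb (P014T.Pu.mem_L p.xm) v1
  obtain ⟨d, rfl⟩ := alg r.pos q0 q1 hb (P014T.Pu.mem_L p.ym) v2
  have m : (Cv Qb (A : ℚ) (B : ℚ)).Nonsingular c d :=
    (WeierstrassCurve.Affine.map_nonsingular _ ι.injective c d).1 
      (crv_map ι (ι.toRatAlgHom.commutes (A : ℚ)) (ι.toRatAlgHom.commutes (B : ℚ)) ▸ n :)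
  refine ⟨⟨.some c d m, fun g hg => ?_⟩, ⟨c, d, m, rfl, v1, v2⟩, ?_⟩
  · rw [ga_some]
    exact (WeierstrassCurve.Affine.Point.some.injEq ..).mpr
      ⟨fix h hg (fx g hg) p.xq v1, fix h hg (fx g hg) p.yq v2⟩
  · rw [hl l k, pa_some]
    refine (congrArg _ v).trans ?_
    rw [Lm, coeff_mk, r.zero, Int.cast_zero, zero_mul, zero_add, P022K.FI.ev, ← tsum_mul_left]
    refine tsum_congr fun n => ?_
    rw [P014T.Dc.lw, coeff_mk, coeff_mk, smul_eq_mul, ← div_div, ← mul_assoc,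
      mul_div_cancel₀ _ (Nat.cast_ne_zero.2 p.wpos.ne'), div_mul_eq_mul_div]

end Par

open Ah (am)

/-- **small points of the disc** -/
theorem par : PAR := fun N G a A B w I x y ι P h lg r p hl => by
  obtain ⟨ρ, r0, hρ⟩ := Par.pt h r p hl
  obtain ⟨k, hk⟩ := exists_pow_lt_of_lt_one (lt_min r0 (show (0 : ℝ) < 1 / 4 by norm_num))
    Sb.r_inv
  choose q q0 q1 q2 q3 using fun i : Fin 2 => Par.ex_q (k := k + 1 + i) (by omega)
  have n : ∀ i, ‖am (q i)‖ ≤ min ρ (1 / 4) := fun i => (q1 i).trans_le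
    ((pow_le_pow_of_le_one Sb.r_inv0.le Sb.r_inv.le (by omega)).trans hk.le)
  have n1 : ∀ i, ‖am (q i)‖ < 1 := fun i => (n i).trans_lt (min_lt_of_right_lt (by norm_num))
  have j : ∀ i, ∃ b, P014T.Dc.jv (am (q i)) = ι b := fun i =>
    ⟨((pp : P022.Qb) ^ _)⁻¹, by rw [q3, map_inv₀, map_pow, map_natCast]⟩
  choose R R1 R2 using fun i => hρ _ (q0 i) (n1 i) ((n i).trans (min_le_left _ _)) (j i)
    fun g _ => h.ro_am g _
  refine ⟨fun i => am (q i), R, fun e => ?_, fun i =>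
    ⟨q0 i, n1 i, Ah.am_AA _, q2 i, j i, fun g _ => h.ro_am g _, R1 i, R2 i⟩⟩
  have m := fun i => Par.nrm_Lm (q0 i) ((n i).trans (min_le_right _ _))
    (c := fun n => (a n : ℂ_[pp])) (by simp [r.zero]) (by simp [r.one])
    fun _ => IsUltrametricDist.norm_intCast_le_one _ _
  have := (m 0).symm.trans (((congrArg norm ((R2 0).symm.trans (e ▸ R2 1)))).trans (m 1))
  rw [q1, q1] at this
  exact absurd (pow_right_injective₀ Sb.r_inv0 Sb.r_inv.ne this) (by simp)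

end Vale.Agent.P014U.Rc
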