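import Vale.Agent.P014U.Rc.St
import Vale.Agent.P014T.Rc.Val

/-! # P014U, block REC: row VAL (helper42) -/

set_option autoImplicit false
set_option linter.all false

open scoped Classical MatrixGroups Real ComplexConjugate UpperHalfPlane
open PowerSeries

noncomputable section

namespace Vale.Agent.P014U.Rc

open Vale.Agent.P022 (Qb)
open P004N (RN Mk QE)
open Vale.Agent.P004Z (PA TcL pet2)
open Vale.Agent.P027M.M (io)
open Vale.Agent.P022K.QT
open P014T.Rk (E1 Ph Lw FF hk)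

variable [Pp]

namespace Va

export Vale.Agent.P014T.Rc.Va (hr_eq sc sc_bij dv_iff ph_sc ff_sc fs_eq sm_un)

variable {R : Type} [CommRing R] {l N c d : ℕ}

variable [NeZero l]

variable [Algebra ℚ R]

/-- bounded coefficients -/
def Bd : Subring ℂ_[pp]⟦X⟧ where
  carrier := {f | ∃ b, ∀ n, ‖coeff n f‖ ≤ b}
  zero_mem' := ⟨0, by simp⟩
  one_mem' := ⟨1, fun k => by rw [coeff_one]; split_ifs <;> simp⟩
  add_mem' := fun ⟨a, p⟩ ⟨b, q⟩ => ⟨a + b, fun k => by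
    rw [map_add]; exact norm_add_le_of_le (p k) (q k)⟩
  neg_mem' := fun ⟨a, p⟩ => ⟨a, by simpa using p⟩
  mul_mem' := fun ⟨a, p⟩ ⟨b, q⟩ => ⟨a * b, fun k => by
    have a0 := (norm_nonneg _).trans (p 0)
    rw [coeff_mul]
    exact IsUltrametricDist.norm_sum_le_of_forall_le_of_nonneg
      (mul_nonneg a0 ((norm_nonneg _).trans (q 0))) fun _ _ =>
      (norm_mul_le _ _).trans (mul_le_mul (p _) (q _) (norm_nonneg _) a0)⟩

theorem bd_C (x : ℂ_[pp]) : C x ∈ Bd := ⟨‖x‖, fun k => by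
  rw [coeff_C]; split_ifs <;> simp⟩

theorem bd_E {ζ : ℂ_[pp]} (h : ‖ζ‖ = 1) (v : ZMod l × ZMod l) : E1 l ζ v ∈ Bd :=
  ⟨max ‖algebraMap ℚ ℂ_[pp] (v.1.val / l - 1 / 2)‖ 2, fun k => by
    rw [E1, coeff_mk]
    split_ifs
    · exact le_max_left _ _
    · refine le_max_of_le_right (IsUltrametricDist.norm_sum_le_of_forall_le_of_nonneg zero_le_two
        fun p _ => (norm_sub_le _ _).trans ?_)
      split_ifs <;> norm_num [h]⟩

theorem bd_FF {ζ : ℂ_[pp]} (h : ‖ζ‖ = 1) (Φ : (ZMod l × ZMod l) × (ZMod l × ZMod l) → ℂ_[pp]) :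
    FF l ζ Φ ∈ Bd := sum_mem fun Y _ => by
  rw [smul_eq_C_mul]
  exact mul_mem (bd_C _) (mul_mem (bd_E h _) (bd_E h _))

end Va

open Va

/-- **row `VAL`** -/
theorem val : VAL := by
  intro ι N G a A B w I x y S l _ Q c d γ ω hG hP hS hl hQ hA hω F hF
  obtain ⟨_, _, _, _, _, par⟩ := hP.par
  have w0 : (w : ℂ) ≠ 0 := Nat.cast_ne_zero.2 par.wpos.ne'
  have eI : ∀ g : SL(2, ℤ), Filter.Tendsto (fun z : ℍ => P004N.Pr (fun n => (a n : ℂ)) (g • z))
      UpperHalfPlane.atImInfty (nhds (w * P014T.Es.cv I g)) := fun g =>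
    ((P014T.Es.tend hG par g).const_mul (w : ℂ)).congr fun z => by
      rw [par.I_eq, mul_div_cancel₀ _ w0]
  obtain ⟨F', m, q, z, p⟩ := P014T.Rk.rk N l G a (fun x => (sm c d ω x : ℂ)) γ (w * P014T.Es.sy I γ) hG hl
    (fun n e => ((ZMod.coe_int_isUnit_iff_isCoprime n l).1
      (sm_un hA hω _ (Int.cast_ne_zero.1 e))).symm.of_isCoprime_of_dvd_right
        (Int.natCast_dvd_natCast.2 hl)) hA.g0 hA.g1 ⟨_, _, eI _, eI _, mul_sub _ _ _⟩
  obtain ⟨κ, hκ⟩ := hQ F' _ m q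
  have ad := P014T.Rk.adj N S G F' a _ Q κ hG hS m q hκ
  rw [fs_eq hl hA] at hF
  let c0 : ℕ → Qb := fun n => coeff n (FF l (Cu.E (1 / l))
    (Ph N (γ 1 0) (γ 1 1) fun x => (sm c d ω x : Qb)))
  have e1 : ∀ n, coeff n F = ι (c0 n) := fun n => by
    rw [hF, P014T.Rk.co_map]
    simp only [map_intCast]
  have e2 : ∀ n, coeff n (FF l (Complex.exp (2 * π * Complex.I / l))
      (Ph N (γ 1 0) (γ 1 1) fun x => (sm c d ω x : ℂ))) = (io : Qb →+* ℂ) (c0 n) := fun n => by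
    rw [P014T.Rk.co_map, RingHom.coe_coe, Cu.io_E]
    simp only [map_intCast, Rat.cast_div, Rat.cast_one, Rat.cast_natCast, mul_one_div]
  have e3 : ∀ n, (io : Qb →+* ℂ) (hk Qb Q (fun n => c0 (l * n)) n) = κ * a n := fun n => by
    rw [P014T.Rk.hk_map, ← congrFun hκ n]
    simp only [e2]
    rfl
  have e4 : io (hk Qb Q (fun n => c0 (l * n)) 1) = κ := by simpa [hG.one] using e3 1
  refine ⟨fun n k => ?_, hF ▸ bd_FF (Cu.norm_E ι _) _, hk Qb Q (fun n => c0 (l * n)) 1,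
    funext fun n => ?_, ?_⟩
  · rw [e1, (io : Qb →+* ℂ).injective ((e2 n).symm.trans ((z n k).trans (map_zero _).symm)),
      map_zero]
  · rw [hr_eq]
    simp only [e1]
    rw [← P014T.Rk.hk_map, ← map_intCast ι, ← map_mul]
    refine congrArg ι ((io : Qb →+* ℂ).injective ?_)
    rw [e3, map_mul, map_intCast, RingHom.coe_coe, e4]
  · rw [e4, ad, p, ev, map_mul, map_natCast]
    ring

end Vale.Agent.P014U.Rc
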