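import Vale.Agent.P014U.Rc.Glue
import Vale.Agent.P014U.Rc.Even
import Vale.Agent.P014U.Rc.Par
import Vale.Agent.P014T.Rc.Pt
import Vale.Agent.P014U.Rc.Mt
import Vale.Agent.P014U.Rc.Lh
import Vale.Agent.P014U.Rc.Plq
import Vale.Agent.P014U.Rc.Val
import Vale.Agent.P014U.Rc.Eval
import Vale.Agent.P014U.Rc.Fev
import Vale.Agent.P014T.Rc.Abq
import Vale.Agent.P014U.Ev.Kz
import Vale.Agent.P014U.Ev.Evp

/-!
# P014U, block REC: the closed rows
-/

set_option autoImplicit false
set_option linter.all false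

namespace Vale.Agent.P014U.Rc

export Vale.Agent.P014T.Rc (pt abq)

variable [Pp]

theorem rec3 {Kz : KZ} (e : EVQ Kz) (a : ABQ) (f : FEV) : REC Kz :=
  rec_of e a (mt pt) (hk (mt pt)) lh (plq pt) f val par

theorem rce3 {Kz : KZ} (e : EVQ Kz) (a : ABQ) (f : FEV) : RCE Kz := (rec3 e a f).even

theorem rec2 {Kz : KZ} (e : EVQ Kz) (a : ABQ) : REC Kz := rec3 e a (fev evl)

theorem rec1 {Kz : KZ} (e : EVQ Kz) : REC Kz := rec2 e abq

/-- **the explicit reciprocity law from the evaluation of the pairing** -/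
theorem rec0 (e : Ev.EVP) : REC Ev.Kz := rec1 (Ev.evq_of e)

/-- **the explicit reciprocity law** -/
theorem rec_all : REC Ev.Kz := rec0 Ev.evp

end Vale.Agent.P014U.Rc
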