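import Vale.Agent.P014U.Ah.Fc
import Vale.Agent.P014U.Sb.Lm
import Vale.Agent.P014U.Cp.Defs
import Vale.Agent.P014U.Lc.Fx
import Vale.Agent.P014T.Rc.St

/-!
# P014U, block REC (explicit reciprocity): words and rows at the odd prime
-/

set_option autoImplicit false
set_option linter.all false

open scoped Classical MatrixGroups Real ComplexConjugate UpperHalfPlane
open CongruenceSubgroup NumberField PowerSeries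

noncomputable section

namespace Vale.Agent.P014U.Rc

export Vale.Agent.P014T.Rc (KZ pb pc Pv Ga Vol orb Fr ev Pj Tr Hr Hd Ac Es FS rw rg sm Ad Wt zw Hf
  Hc GA ABQ PT)

open Vale.Agent.P022 (Qb GQ)
open Vale.Agent.P022D.W (dec)
open X4S.Ga (K O)
open X4S.Aq (cy)
open X4F.Rc (mq hn)
open Vale.Agent.P004M.TE (Cv Pt pa ga)
open P004N (RN Mk QE)
open Vale.Agent.P004Z (PA Tdiv TcL pet2)
open Vale.Agent.P004Z.Ar (cs)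
open Vale.Agent.P027M.M (Mdl FF L cv io Lv Cyc)
open Vale.Agent.P022K.QT.Cu (E)
open P027M.K (Val SL)
open Vale.Agent.P019P (Plk ord CFF)
open Vale.Agent.P022K.F0.Cf (od)
open Ah (Ind am AA)
open P014T.Dc (Vf At eg jL jv)
open P014T.Sg (sF)
open P014T.Pu (ParY)
open P014T.Es (LL sy)
open P014T.Rk (E1 Ph Lw)
open Sb (Gd Lm)
open Cp (Zn cp)
open P014T.Wm (Fx)

/-! ## words -/

variable [Pp] {A B : ℤ}

/-- the point `t = e(τ / M)` of the Tate disc and the point `τ` give the same place of `L Γ` -/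
structure Sm (ι : Qb →+* ℂ_[pp]) (M : ℕ) (Γ : Subgroup SL(2, ℤ)) (t : ℂ_[pp]) (τ : ℍ) : Prop where
  ne : t ≠ 0
  lt : ‖t‖ < 1
  alg : ∃ a, jv (t ^ M) = ι a
  val : ∀ f ∈ L Γ, ∀ a, Vf ι M t f (ι a) ↔ P004Z.EF.Val τ (cv f) (io a)

/-- the divisor `μ` on the disc represents the multiplicity function `n` -/
structure Rp (ι : Qb →+* ℂ_[pp]) (N : ℕ) (μ : ℂ_[pp] →₀ ℤ) (n : ℍ → ℤ) : Prop where
  ex : ∀ q ∈ μ.support, ∃ τ, Sm ι 1 (Gamma0 N) q τ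
  eq : ∀ q τ, Sm ι 1 (Gamma0 N) q τ → n τ = μ q
  sup : ∀ τ, n τ ≠ 0 → ∃ q, Sm ι 1 (Gamma0 N) q τ

/-- a good divisor on the disc -/
def Ok (μ : ℂ_[pp] →₀ ℤ) : Prop := ∀ q ∈ μ.support, q ≠ 0 ∧ ‖q‖ < 1 ∧ q ∈ AA ∧ Gd q

/-- invariant under the decomposition group -/
def Iq {ι : Qb →+* ℂ_[pp]} {P : Ideal (𝓞 Qb)} (h : Ind ι P) (μ : ℂ_[pp] →₀ ℤ) : Prop :=
  ∀ g ∈ dec P, ∀ q, μ (h.ro g q) = μ q

/-- the Hecke operator on divisors of the disc -/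
def Tq (l : ℕ) : Module.End ℤ (ℂ_[pp] →₀ ℤ) := Finsupp.linearCombination ℤ fun q =>
  Finsupp.single (q ^ l) 1 + ∑ u ∈ (Polynomial.nthRoots l q).toFinset, Finsupp.single u 1

/-- Hecke polynomials on divisors of the disc -/
def Hq {S : ℕ} (P : FreeAlgebra ℤ (PA S)) : Module.End ℤ (ℂ_[pp] →₀ ℤ) :=
  FreeAlgebra.lift ℤ (fun l : PA S => Tq l.1) P

/-- `Av` is the pull back of `μ` to `X(l)` -/
structure Ab (X : Mdl) (ι : Qb →+* ℂ_[pp]) (N l : ℕ) [CFF Qb (L (Gamma l))] (μ : ℂ_[pp] →₀ ℤ)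
    (Av : Plk Qb (L (Gamma l)) →₀ ℤ) : Prop where
  sup : ∀ y ∈ Av.support, ∃ q ∈ μ.support, ∀ t, t ^ l = q →
    ∃ γ ∈ Gamma0 N, At ι l t (eg X γ _) y
  eq : ∀ y t, ∀ γ ∈ Gamma0 N, t ^ l ∈ μ.support → At ι l t (eg X γ _) y → Av y = μ (t ^ l)

/-- the symbol over the support of `Av` -/
def sy2 {ι : Qb →+* ℂ_[pp]} {P : Ideal (𝓞 Qb)} (h : Ind ι P) {l : ℕ} [CFF Qb (L (Gamma l))]
    (σ : GQ →* SL Qb (L (Gamma l))) {J : Type} [Fintype J] (s : J → GQ) (p : GQ → J → J)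
    (W : J → ℤ) (Av : Plk Qb (L (Gamma l)) →₀ ℤ) (n : ℕ) (e : ℤ) (u v : L (Gamma l)) : K ⧸ O :=
  h.fd.sym (fun g (y : Plk Qb (L (Gamma l)) × J) => (σ g • y.1, p g y.2))
    (Av.support ×ˢ Finset.univ) n (fun y => (e * Av y.1 * W y.2 : ℤ) * (cy (s y.2))⁻¹)
    (fun y => ι (P025H492.vl y.1 ((σ (s y.2)).1 u))) fun y => ι (P025H492.vl y.1 ((σ (s y.2)).1 v))

/-! ## rows -/

/-- **evaluation of the pairing** -/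
def EVQ (Kz : KZ) : Prop := ∀ (X : Mdl) N G a A B w I (l n : ℕ) [CFF Qb (L (Gamma l))]
  (x y : L (Gamma l)) (hD : 4 * ((A : ℤ) : ℚ) ^ 3 + 27 * ((B : ℤ) : ℚ) ^ 2 ≠ 0)
  (σ : GQ →* SL Qb (L (Gamma l))), RN N G a → ParY N a A B w I (cv x) (cv y) → N ∣ l → Lv l →
  pp ^ n ∣ l → Ga X σ → ∃ e : ℤ, ¬ (pp : ℤ) ∣ e ∧ ∀ (u v : L (Gamma l)) z, Kz X A B x y l n u v z →
    ∀ ι P (h : Ind ι P) (J : Type) [Fintype J] s p (W : J → ℤ), P014T.Kc.Tr ⊤ (P014T.Dr.Hm l) s p →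
    (∀ g ∈ dec P, ∀ i, W (p g i) = W i) → ∀ R t R' f Av, R ∈ Fx A B (dec P) →
    t ∈ Fx A B (dec P) → 2 • t ≠ 0 → 2 • (t + R) ≠ 0 → pp ^ n • R' = R →
    Hf σ (dec P) x y R t f Av → Zn (dec P) n (zw s p W z) ∧
      Iv.iv P (cp (Ki.wp hD) n (Bt.dd A B R') (zw s p W z)) = sy2 h σ s p W Av n e u v

/-- **the value of the symbol of two Siegel units** -/
def EVAL : Prop := ∀ ι P (h : Ind ι P) (M n l : ℕ), l = M * pp ^ n → 0 < n → 0 < M → 2 ∣ M →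
  ∃ e : ℤ, ¬ (pp : ℤ) ∣ e ∧ ∀ (c d : ℕ) (Y : Type) (α : GQ → Y → Y) (S : Finset Y) (τ : Y → K) (W : Y → ℤ)
    (v v' : Y → ZMod l × ZMod l) (t f g : Y → ℂ_[pp]), c ^ 2 % 24 = 1 → d ^ 2 % 24 = 1 →
    c.Coprime l → d.Coprime l → Sy.Ds (dec P) α S → Sy.Tw (dec P) α S n τ →
    f ∈ h.fd.G α S → g ∈ h.fd.G α S → (fun y => t y ^ l) ∈ h.fd.G α S →
    (fun y => ι (E (1 / l)) ^ (v y).2.val * t y ^ (v y).1.val) ∈ h.fd.G α S →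
    (fun y => ι (E (1 / l)) ^ (v' y).2.val * t y ^ (v' y).1.val) ∈ h.fd.G α S →
    (∀ j ∈ dec P, ∀ y ∈ S, W (α j y) = W y ∧ (v (α j y)).1 = (v y).1 ∧ (v' (α j y)).1 = (v' y).1) →
    (∀ y ∈ S, ‖t y‖ < 1 ∧ Gd (t y) ∧ (v y).1 ≠ 0 ∧ (v' y).1 ≠ 0 ∧
      IsUnit ((v y).1 * (v' y).2 - (v y).2 * (v' y).1) ∧
      hn n * (τ y * (((v y).1 * (v' y).2 - (v y).2 * (v' y).1).val : ℕ) - W y) ∈ O ∧
      Vf ι l (t y) (sF c (rw l (v y))) (f y) ∧ Vf ι l (t y) (sF d (rw l (v' y))) (g y)) →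
    ∃ θ : K, am θ = ∑ y ∈ S, W y * Lm (t y)
        (Es c l (ι (E (1 / l))) (v y) * Es d l (ι (E (1 / l))) (v' y)) ∧
      2 • h.fd.sym α S n τ f g = mq (2 * e * θ / (M * (pp ^ 2) ^ n))

/-- points of the disc and points of the upper half plane -/
def MT : Prop := ∀ (ι : Qb →+* ℂ_[pp]) (M l : ℕ) (Γ : Subgroup SL(2, ℤ)), 0 < M → 0 < l →
  Gamma l ≤ Γ → ModularGroup.T ^ M ∈ Γ →
  (∀ t a, t ≠ 0 → ‖t‖ < 1 → jv (t ^ M) = ι a → ∃ τ, Sm ι M Γ t τ) ∧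
  ∀ t τ, Sm ι M Γ t τ → Fr τ ∧ (∀ τ', Sm ι M Γ t τ' ↔ ∃ γ ∈ Γ, γ • τ = τ') ∧
    ∀ t', Sm ι M Γ t' τ → t' ^ M = t ^ M

/-- Hecke operators on the disc and on the upper half plane -/
def HK : Prop := ∀ (ι : Qb →+* ℂ_[pp]) (N S : ℕ) (P : FreeAlgebra ℤ (PA S)) μ n, 0 < N → N ∣ S →
  Rp ι N μ n → ∃ n', Rp ι N (Hq P μ) n' ∧ cs n' = Hd P (cs n)

/-- Hecke operators and primitives -/
def LH : Prop :=
  (∀ (S : ℕ) (Q : FreeAlgebra ℤ (PA S)) μ, Ok μ → Ok (Hq Q μ) ∧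
    (∀ ι P (h : Ind ι P), Iq h μ → Iq h (Hq Q μ)) ∧
    ∀ c : ℕ → ℂ_[pp], (∃ b, ∀ n, ‖c n‖ ≤ b) →
      ∑ q ∈ (Hq Q μ).support, Hq Q μ q * Lm q (PowerSeries.mk c) =
        ∑ q ∈ μ.support, μ q * Lm q (PowerSeries.mk (Hr ℂ_[pp] Q c))) ∧
  ∀ (l : ℕ) (t : ℂ_[pp]) (F : ℂ_[pp]⟦X⟧), 0 < l → ‖t‖ < 1 → Gd (t ^ l) → (∃ b, ∀ n, ‖coeff n F‖ ≤ b) →
    (∀ n, ¬ l ∣ n → coeff n F = 0) → Lm t F = Lm (t ^ l) (PowerSeries.mk fun n => coeff (l * n) F) / l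

/-- from the upper half plane to the places of `X(l)` -/
def PLQ : Prop := ∀ (X : Mdl) ι P (h : Ind ι P) (N l : ℕ) [CFF Qb (L (Gamma l))]
  (σ : GQ →* SL Qb (L (Gamma l))) (A B : ℤ) (x y f : L (Gamma l)) (R t : Pt A B) μ n, Lv l →
  N ∣ l → Ga X σ → (∀ g, X.gal g x = x ∧ X.gal g y = y) → R ∈ Fx A B (dec P) →
  t ∈ Fx A B (dec P) → Rp ι N μ n → Iq h μ → Hc N x y R t f n →
  ∃ Av, Ab X ι N l μ Av ∧ Hf σ (dec P) x y R t f Av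

/-- the fibres over the disc -/
def FEV : Prop := ∀ (X : Mdl) ι P (h : Ind ι P) (M n l : ℕ) [NeZero l] [CFF Qb (L (Gamma l))],
  l = M * pp ^ n → 0 < n → 4 ∣ M → ∃ e' : ℤ, ¬ (pp : ℤ) ∣ e' ∧ ∀ (σ : GQ →* SL Qb (L (Gamma l))) (N c d : ℕ)
    γ (u v : L (Gamma l)) (J : Type) [Fintype J] s p (κ : J → ℤ) w μ Av (t : ℂ_[pp] → ℂ_[pp]) (e : ℤ),
    Ga X σ → N ∣ l → Ad N l c d γ → (u : FF) = sF c (rg l γ 0) → (v : FF) = sF d (rg l γ 1) →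
    Wt l (dec P) s p κ w → Ok μ → Iq h μ → (∀ q ∈ μ.support, ∃ a, jv q = ι a) →
    Ab X ι N l μ Av → (∀ q ∈ μ.support, t q ^ l = q) →
    ∃ θ : K, am θ = ∑ q ∈ μ.support, μ q * Lm (t q)
        (FS c d l (ι (E (1 / l))) (Ph N (γ 1 0) (γ 1 1) fun x => (w x : ℂ_[pp]))) ∧
      4 • sy2 h σ s p (fun i => w (κ i)) Av n e u v = mq (2 * (e * e') * θ / (M * (pp ^ 2) ^ n))

/-- the projection of the sum of products -/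
def VAL : Prop := ∀ (ι : Qb →+* ℂ_[pp]) N G a A B (w : ℕ) I x y (S l : ℕ) [NeZero l]
  (Q : FreeAlgebra ℤ (PA S)) (c d : ℕ) γ (ω : ZMod l → ℤ), RN N G a →
  ParY N a A B w I x y → N ∣ S → N ∣ l → Pj N a Q → Ad N l c d γ → (∀ x, ω x ≠ 0 → IsUnit x) →
  ∀ F, F = FS c d l (ι (E (1 / l))) (Ph N (γ 1 0) (γ 1 1) fun x => (ω x : ℂ_[pp])) →
    (∀ n, ¬ l ∣ n → coeff n F = 0) ∧ (∃ b, ∀ n, ‖coeff n F‖ ≤ b) ∧ ∃ κ : Qb,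
      (Hr ℂ_[pp] Q fun n => coeff (l * n) F) = (fun n => ι κ * a n) ∧
      io κ * pet2 N G G = ev a Q * (-Complex.I * l ^ 2 / (4 * π ^ 2)) * w *
        (Lw a (fun n => sm c d ω n) * conj (sy I γ) - Lw a (fun n => sm c d ω (-n)) * sy I γ)

/-- small points of the disc -/
def PAR : Prop := ∀ N G a A B (w : ℕ) I x y ι P (h : Ind ι P)
  (lg : Fx A B (dec P) →+ K), RN N G a → ParY N a A B w I (cv x) (cv y) → Lc.Lk ι lg →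
  ∃ q : Fin 2 → ℂ_[pp], ∃ R : Fin 2 → Fx A B (dec P), lg (R 0) ≠ lg (R 1) ∧ ∀ i,
    q i ≠ 0 ∧ ‖q i‖ < 1 ∧ q i ∈ AA ∧ Gd (q i) ∧ (∃ b, jv (q i) = ι b) ∧
    (∀ g ∈ dec P, h.ro g (q i) = q i) ∧
    (∃ c d n, (R i).1 = .some c d n ∧ Vf ι 1 (q i) x (ι c) ∧ Vf ι 1 (q i) y (ι d)) ∧
    w * am (lg (R i)) = Lm (q i) (PowerSeries.mk fun n => (a n : ℂ_[pp]))

/-- **the explicit reciprocity law** -/
def REC (Kz : KZ) : Prop := ∀ (X : Mdl) N G a A B (w : ℕ) I x y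
  (hD : 4 * ((A : ℤ) : ℚ) ^ 3 + 27 * ((B : ℤ) : ℚ) ^ 2 ≠ 0) ι P (h : Ind ι P)
  (lg : Fx A B (dec P) →+ K), RN N G a → ParY N a A B w I (cv x) (cv y) → Lc.Lk ι lg →
  ∃ R : Fx A B (dec P), lg R ≠ 0 ∧ ∀ M n l : ℕ, l = M * pp ^ n → 0 < n → 0 < M → 4 ∣ M → N ∣ l →
    ∃ e : ℤ, ¬ (pp : ℤ) ∣ e ∧ ∀ (c d : ℕ) γ z, Ad N l c d γ →
      Kz X A B x y l n (sF c (rg l γ 0)) (sF d (rg l γ 1)) z →
      ∀ (J : Type) [Fintype J] s p (κ : J → ℤ) (ω : ZMod l → ℤ) R' c0, Wt l (dec P) s p κ ω →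
        pp ^ n • R' = R.1 → Vol (LL I) c0 → ∃ (b : Qb) (θ : K), am θ = ι b ∧
          io b * c0 = -Complex.I * (Lw a (fun n => sm c d ω n) * conj (sy I γ) -
            Lw a (fun n => sm c d ω (-n)) * sy I γ) ∧
          Zn (dec P) n (zw s p (fun i => ω (κ i)) z) ∧
          4 • Iv.iv P (cp (Ki.wp hD) n (Bt.dd A B R') (zw s p (fun i => ω (κ i)) z)) =
            mq (2 * e * hn n * lg R * θ)

end Vale.Agent.P014U.Rc
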